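import Vale.Agent.P291.K.Vdm

set_option autoImplicit false
set_option linter.unusedSectionVars false

/-! Alternating elements modulo a symmetric triangular ideal. -/

namespace Vale.Agent.P291.K

open MvPolynomial

variable {M A I : Type} [CommRing A] [IsDomain A] [Algebra ℚ A] [DecidableEq M] [Fintype M]
  (col : M → I) (L : I → I → Multiset A) (Z : I → Multiset A) (r : M → ℚ)

/-- the triangular ideal of the rank function `r` for weights which depend only on the colours -/
noncomputable def TC {α : Type} [LinearOrder α] (r : M → α) : Ideal (MvPolynomial M A) :=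
  TI (fun b c => L (col b) (col c)) (fun b => Z (col b)) (up r)

/-- renaming of a framing weight -/
lemma as1_Zw (f : M → M) (hf : ∀ c, col (f c) = col c) (c : M) :
    rename f (Zw (fun b => Z (col b)) c) = Zw (fun b => Z (col b)) (f c) := by
  unfold Zw
  rw [map_multiset_prod, Multiset.map_map]
  beta_reduce
  rw [hf]
  congr 1
  refine Multiset.map_congr rfl fun z _ => ?_
  rw [Function.comp_apply, map_sub, rename_X, rename_C]

/-- renaming of the weight of a pair -/
lemma as1_Dw (f : M → M) (hf : ∀ c, col (f c) = col c) (c d : M) :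
    rename f (Dw (fun b c => L (col b) (col c)) c d) =
      Dw (fun b c => L (col b) (col c)) (f c) (f d) := by
  unfold Dw
  rw [map_multiset_prod, Multiset.map_map]
  beta_reduce
  rw [hf, hf]
  congr 1
  refine Multiset.map_congr rfl fun z _ => ?_
  rw [Function.comp_apply, map_add, map_sub, rename_X, rename_X, rename_C]

/-- renaming of a relation -/
lemma as1_Pr (f : M → M) (hf : ∀ c, col (f c) = col c) (T : M → Finset M) (c : M) :
    rename f (Pr (fun b c => L (col b) (col c)) (fun b => Z (col b)) T c) =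
      Zw (fun b => Z (col b)) (f c) *
        ∏ d ∈ T c, Dw (fun b c => L (col b) (col c)) (f c) (f d) := by
  unfold Pr
  rw [map_mul, as1_Zw col Z f hf, map_prod]
  congr 1
  exact Finset.prod_congr rfl fun d _ => as1_Dw col L f hf c d

lemma as1_swap {a b : M} (hc : col a = col b) (c : M) : col (Equiv.swap a b c) = col c := by
  by_cases h1 : c = a
  · rw [h1, Equiv.swap_apply_left, hc]
  · by_cases h2 : c = b
    · rw [h2, Equiv.swap_apply_right, hc]
    · rw [Equiv.swap_apply_of_ne_of_ne h1 h2]

/-- the relations are permuted -/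
lemma as1_sw_Pr {a b : M} (hc : col a = col b) (hr : r a = r b) (c : M) :
    sw a b (Pr (fun b c => L (col b) (col c)) (fun b => Z (col b)) (up r) c) =
      Pr (fun b c => L (col b) (col c)) (fun b => Z (col b)) (up r) (Equiv.swap a b c) := by
  unfold sw
  rw [as1_Pr col L Z _ (as1_swap col hc)]
  unfold Pr
  congr 1
  refine Finset.prod_bij (fun d _ => Equiv.swap a b d) ?_ ?_ ?_ ?_
  · intro d hd
    have h1 := (Finset.mem_filter.1 hd).2
    refine Finset.mem_filter.2 ⟨Finset.mem_univ _, ?_⟩
    rw [as1_swap r hr, as1_swap r hr]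
    exact h1
  · intro d _ d' _ h
    exact (Equiv.swap a b).injective h
  · intro d hd
    refine ⟨Equiv.swap a b d, ?_, Equiv.swap_apply_self a b d⟩
    have h1 := (Finset.mem_filter.1 hd).2
    refine Finset.mem_filter.2 ⟨Finset.mem_univ _, ?_⟩
    rw [as1_swap r hr] at h1 ⊢
    exact h1
  · intro d _
    rfl

lemma sw_TC {a b : M} (hc : col a = col b) (hr : r a = r b) {y : MvPolynomial M A}
    (hy : y ∈ TC col L Z r) : sw a b y ∈ TC col L Z r := by
  have h1 : TC col L Z r ≤ (TC col L Z r).comap (sw a b) := by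
    rw [TC, TI, Ideal.span_le]
    rintro _ ⟨c, rfl⟩
    show sw a b _ ∈ Ideal.span _
    rw [as1_sw_Pr col L Z r hc hr]
    exact Ideal.subset_span ⟨_, rfl⟩
  exact h1 hy

/-- restriction to the diagonal `x a = x b` -/
noncomputable def dg (a b : M) : MvPolynomial M A →ₐ[A] MvPolynomial M A :=
  aeval fun c => if c = a then X b else X c

lemma dg_ker {a b : M} {f : MvPolynomial M A} (h : dg a b f = 0) :
    ∃ g, f = (X a - X b) * g := by
  have h1 : ((Ideal.Quotient.mkₐ A (Ideal.span {(X a - X b : MvPolynomial M A)})).comp (dg a b)) =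
      Ideal.Quotient.mkₐ A (Ideal.span {(X a - X b : MvPolynomial M A)}) := by
    apply MvPolynomial.algHom_ext
    intro c
    rw [AlgHom.comp_apply, dg, aeval_X]
    by_cases hc : c = a
    · rw [if_pos hc, hc]
      show Ideal.Quotient.mk _ (X b) = Ideal.Quotient.mk _ (X a)
      rw [eq_comm, Ideal.Quotient.mk_eq_mk_iff_sub_mem]
      exact Ideal.subset_span rfl
    · rw [if_neg hc]
  have h2 := congrArg (fun φ => φ f) h1
  simp only [AlgHom.comp_apply, h, map_zero] at h2
  have h3 : f ∈ Ideal.span {(X a - X b : MvPolynomial M A)} :=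
    Ideal.Quotient.eq_zero_iff_mem.1 h2.symm
  exact Ideal.mem_span_singleton.1 h3

/-- the diagonal as a map of the marks -/
def as1_de (a b : M) (c : M) : M := if c = a then b else c

lemma as1_dg (a b : M) : (dg a b : MvPolynomial M A →ₐ[A] _) = rename (as1_de a b) := by
  apply MvPolynomial.algHom_ext
  intro c
  rw [dg, aeval_X, rename_X, as1_de]
  split_ifs <;> rfl

lemma as1_de_a (a b : M) : as1_de a b a = b := if_pos rfl

lemma as1_de_ne {a b c : M} (h : c ≠ a) : as1_de a b c = c := if_neg h

lemma as1_dg_dg {a b : M} (hab : a ≠ b) (f : MvPolynomial M A) : dg a b (dg a b f) = dg a b f := by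
  rw [as1_dg, rename_rename]
  congr 2
  funext c
  rw [Function.comp_apply]
  by_cases h : c = a
  · rw [h, as1_de_a, as1_de_ne hab.symm]
  · rw [as1_de_ne h, as1_de_ne h]

lemma as1_dg_sw {a b : M} (hab : a ≠ b) (f : MvPolynomial M A) : dg a b (sw a b f) = dg a b f := by
  unfold sw
  rw [as1_dg, rename_rename]
  congr 2
  funext c
  rw [Function.comp_apply]
  by_cases h : c = a
  · rw [h, Equiv.swap_apply_left, as1_de_a, as1_de_ne hab.symm]
  · by_cases h2 : c = b
    · rw [h2, Equiv.swap_apply_right, as1_de_a, as1_de_ne hab.symm]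
    · rw [Equiv.swap_apply_of_ne_of_ne h h2]

lemma as1_sw_sw (a b : M) (f : MvPolynomial M A) : sw a b (sw a b f) = f := by
  unfold sw
  rw [rename_rename]
  have h : (Equiv.swap a b : M → M) ∘ Equiv.swap a b = id := by
    funext c
    exact Equiv.swap_apply_self a b c
  rw [h, rename_id_apply]

/-- Property (P).  Write `2 (x a - x b) y = α P a + (sw α) P b + j`, `j` in the ideal `J` of the
relations `P c`, `c ≠ a, b` (apply `sw a b` and add).  Restrict to the diagonal: `α P b ∈ dg J`,
`P b` is monic in `x b`, so `dg α ∈ dg J` by `rg_mon` for the relations `dg (P c)`, hence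
`α = (x a - x b) α' + j'`.  So `(x a - x b) (2 y - α' P a + (sw α') P b) ∈ J` and `x a - x b` is
regular modulo `J` by `rg_mon`. -/
theorem propP {a b : M} (hab : a ≠ b) (hc : col a = col b) (hr : r a = r b)
    {y : MvPolynomial M A} (hy : sw a b y = -y) (h : (X a - X b) * y ∈ TC col L Z r) :
    y ∈ TC col L Z r := by
  classical
  set P : M → MvPolynomial M A :=
    Pr (fun b c => L (col b) (col c)) (fun b => Z (col b)) (up r) with hP
  set B : Finset M := (Finset.univ.erase a).erase b with hB
  have hBa : ∀ c ∈ B, c ≠ a := fun c h =>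
    Finset.ne_of_mem_erase (Finset.mem_of_mem_erase h)
  have hBb : ∀ c ∈ B, c ≠ b := fun c h => Finset.ne_of_mem_erase h
  have hBm : ∀ c, c ≠ a → c ≠ b → c ∈ B := fun c h1 h2 =>
    Finset.mem_erase.2 ⟨h2, Finset.mem_erase.2 ⟨h1, Finset.mem_univ c⟩⟩
  have hup : ∀ c d, d ∈ up r c → r c < r d := fun c d h => (Finset.mem_filter.1 h).2
  have hTI : TC col L Z r = Ideal.span (Set.range P) := rfl
  have hswP : ∀ c, sw a b (P c) = P (Equiv.swap a b c) := as1_sw_Pr col L Z r hc hr
  have hTri : Tri r P Finset.univ := tri_Pr _ _ r (up r) hup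
  -- the ideal `J`
  set J : Ideal (MvPolynomial M A) := Ideal.span (P '' (B : Finset M)) with hJ
  have hJle : J ≤ TC col L Z r := by
    rw [hJ, hTI]
    refine Ideal.span_mono ?_
    rintro _ ⟨c, _, rfl⟩
    exact ⟨c, rfl⟩
  have hswJ : ∀ j ∈ J, sw a b j ∈ J := by
    have h1 : J ≤ J.comap (sw a b) := by
      rw [hJ, Ideal.span_le]
      rintro _ ⟨c, hcB, rfl⟩
      show sw a b _ ∈ Ideal.span _
      rw [hswP, Equiv.swap_apply_of_ne_of_ne (hBa c hcB) (hBb c hcB)]
      exact Ideal.subset_span ⟨c, hcB, rfl⟩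
    exact fun j hj => h1 hj
  have hrange : Set.range P = insert (P a) (insert (P b) (P '' (B : Finset M))) := by
    ext f
    constructor
    · rintro ⟨c, rfl⟩
      by_cases h1 : c = a
      · exact Or.inl (by rw [h1])
      · by_cases h2 : c = b
        · exact Or.inr (Or.inl (by rw [h2]))
        · exact Or.inr (Or.inr ⟨c, hBm c h1 h2, rfl⟩)
    · rintro (h1 | h1 | ⟨c, _, h1⟩)
      · exact ⟨a, h1.symm⟩
      · exact ⟨b, h1.symm⟩
      · exact ⟨c, h1⟩
  rw [hTI, hrange, Ideal.mem_span_insert] at h
  obtain ⟨α, z, hz, h⟩ := h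
  rw [Ideal.mem_span_insert] at hz
  obtain ⟨β, j, hj, hz⟩ := hz
  have hj : j ∈ J := hj
  have hswX : sw a b (X a - X b : MvPolynomial M A) = X b - X a := by
    unfold sw
    rw [map_sub, rename_X, rename_X, Equiv.swap_apply_left, Equiv.swap_apply_right]
  have hPa : sw a b (P a) = P b := by rw [hswP, Equiv.swap_apply_left]
  have hPb : sw a b (P b) = P a := by rw [hswP, Equiv.swap_apply_right]
  have h2 : (X a - X b) * y = sw a b α * P b + (sw a b β * P a + sw a b j) := by
    have h3 := congrArg (sw a b) h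
    rw [hz, map_mul, hswX, hy, map_add, map_add, map_mul, map_mul, hPa, hPb] at h3
    linear_combination h3
  set α₁ : MvPolynomial M A := α + sw a b β with hα₁
  have hswα : sw a b α₁ = β + sw a b α := by
    rw [hα₁, map_add, as1_sw_sw, add_comm]
  set j₁ : MvPolynomial M A := j + sw a b j with hj₁
  have hj₁J : j₁ ∈ J := add_mem hj (hswJ j hj)
  have h4 : 2 * ((X a - X b) * y) = α₁ * P a + sw a b α₁ * P b + j₁ := by
    rw [hswα, hα₁, hj₁]
    linear_combination h + h2 + hz
  -- the diagonal
  have hcol : ∀ c, col (as1_de a b c) = col c := by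
    intro c
    by_cases h1 : c = a
    · rw [h1, as1_de_a, hc]
    · rw [as1_de_ne h1]
  have hdgP : ∀ c, dg a b (P c) = Zw (fun b => Z (col b)) (as1_de a b c) *
      ∏ d ∈ up r c, Dw (fun b c => L (col b) (col c)) (as1_de a b c) (as1_de a b d) := by
    intro c
    rw [as1_dg, hP, as1_Pr col L Z _ hcol]
  have hdgPb : dg a b (P b) = P b := by
    rw [hdgP, as1_de_ne hab.symm, hP]
    unfold Pr
    congr 1
    refine Finset.prod_congr rfl fun d hd => ?_
    rw [as1_de_ne]
    rintro rfl
    have h1 := hup b d hd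
    rw [hr] at h1
    exact lt_irrefl _ h1
  have hdgPa : dg a b (P a) = P b := by
    rw [← hPb, as1_dg_sw hab, hdgPb]
  have h5 : P b * dg a b α₁ ∈ Ideal.span ((fun c => dg a b (P c)) '' (B : Finset M)) := by
    have h6 := congrArg (dg a b) h4
    have h7 : dg a b (X a - X b : MvPolynomial M A) = 0 := by
      rw [as1_dg, map_sub, rename_X, rename_X, as1_de_a, as1_de_ne hab.symm, sub_self]
    rw [map_mul, map_mul, h7, zero_mul, mul_zero, map_add, map_add, map_mul, map_mul, hdgPa, hdgPb,
      as1_dg_sw hab] at h6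
    have h8 : dg a b j₁ ∈ Ideal.span ((fun c => dg a b (P c)) '' (B : Finset M)) := by
      have h9 : J ≤ (Ideal.span ((fun c => dg a b (P c)) '' (B : Finset M))).comap (dg a b) := by
        rw [hJ, Ideal.span_le]
        rintro _ ⟨c, hcB, rfl⟩
        exact Ideal.subset_span ⟨c, hcB, rfl⟩
      exact h9 hj₁J
    have h9 : P b * dg a b α₁ = C (algebraMap ℚ A (-1 / 2)) * dg a b j₁ := by
      have h10 : (C (algebraMap ℚ A (-1 / 2)) : MvPolynomial M A) * 2 = -1 := by
        rw [show (2 : MvPolynomial M A) = C (algebraMap ℚ A 2) by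
          rw [map_ofNat, map_ofNat], ← C_mul, ← map_mul]
        norm_num
      linear_combination (C (algebraMap ℚ A (-1 / 2)) : MvPolynomial M A) * h6 +
        (P b * dg a b α₁) * h10
    rw [h9]
    exact Ideal.mul_mem_left _ _ h8
  have hupne : ∀ c, r b ≤ r c → ∀ d ∈ up r c, d ≠ a ∧ d ≠ b := by
    intro c hle d hd
    have hlt := hup c d hd
    constructor
    · intro hda
      rw [hda, hr] at hlt
      exact absurd (hle.trans_lt hlt) (lt_irrefl _)
    · intro hdb
      rw [hdb] at hlt
      exact absurd (hle.trans_lt hlt) (lt_irrefl _)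
  have hdne : ∀ c ∈ B, ∀ d, c ≠ d → c ≠ as1_de a b d := by
    intro c hcB d hcd
    by_cases h1 : d = a
    · rw [h1, as1_de_a]
      exact hBb c hcB
    · rw [as1_de_ne h1]
      exact hcd
  have hTri2 : Tri r (fun c => dg a b (P c)) B := by
    constructor
    · intro c hcB
      show Mon c (dg a b (P c))
      rw [hdgP, as1_de_ne (hBa c hcB)]
      refine mon_mul (mon_Zw _ c) (mon_prod _ _ fun d hd => mon_Dw _ (hdne c hcB d ?_))
      rintro rfl
      exact lt_irrefl _ (hup c c hd)
    · intro c hcB c' hcB' hne hle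
      show Free c (dg a b (P c'))
      rw [hdgP, as1_de_ne (hBa c' hcB')]
      refine free_mul (free_Zw _ hne) (free_prod _ _ fun d hd =>
        free_Dw _ hne (hdne c hcB d ?_))
      rintro rfl
      exact lt_irrefl _ (hle.trans_lt (hup c' c hd))
  have h6 : dg a b α₁ ∈ Ideal.span ((fun c => dg a b (P c)) '' (B : Finset M)) := by
    refine rg_mon r (fun c => dg a b (P c)) hTri2 b (fun h => hBb b h rfl) ?_
      (hTri.mon b (Finset.mem_univ b)) ?_ _ h5
    · intro c hcB hle
      show Free b (dg a b (P c))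
      rw [hdgP, as1_de_ne (hBa c hcB)]
      refine free_mul (free_Zw _ (hBb c hcB).symm) (free_prod _ _ fun d hd =>
        free_Dw _ (hBb c hcB).symm ?_)
      rw [as1_de_ne (hupne c hle d hd).1]
      exact (hupne c hle d hd).2.symm
    · intro c hcB hlt
      exact hTri.free c (Finset.mem_univ c) b (Finset.mem_univ b) (hBb c hcB) hlt.le
  have h7 : α₁ ∈ J ⊔ RingHom.ker (dg a b : MvPolynomial M A →ₐ[A] MvPolynomial M A) := by
    have h8 : Ideal.span ((fun c => dg a b (P c)) '' (B : Finset M)) ≤
        J ⊔ RingHom.ker (dg a b : MvPolynomial M A →ₐ[A] MvPolynomial M A) := by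
      rw [Ideal.span_le]
      rintro _ ⟨c, hcB, rfl⟩
      have h9 : (fun c => dg a b (P c)) c = P c + (dg a b (P c) - P c) := by ring
      rw [h9]
      refine add_mem (Ideal.mem_sup_left (Ideal.subset_span ⟨c, hcB, rfl⟩))
        (Ideal.mem_sup_right ?_)
      rw [RingHom.mem_ker, map_sub, as1_dg_dg hab, sub_self]
    have h9 : α₁ = dg a b α₁ + (α₁ - dg a b α₁) := by ring
    rw [h9]
    refine add_mem (h8 h6) (Ideal.mem_sup_right ?_)
    rw [RingHom.mem_ker, map_sub, as1_dg_dg hab, sub_self]
  obtain ⟨j', hj', k, hk, hjk⟩ := Submodule.mem_sup.1 h7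
  obtain ⟨α', hα'⟩ := dg_ker (RingHom.mem_ker.1 hk)
  -- division by `x a - x b`
  have h8 : (X a - X b) * (2 * y - α' * P a + sw a b α' * P b) ∈ J := by
    have h9 : sw a b α₁ = sw a b j' + (X b - X a) * sw a b α' := by
      rw [← hjk, hα', map_add, map_mul, hswX]
    have h10 : (X a - X b) * (2 * y - α' * P a + sw a b α' * P b) =
        j' * P a + sw a b j' * P b + j₁ := by
      have h11 : α₁ = j' + (X a - X b) * α' := by rw [← hjk, hα']
      rw [h9] at h4
      rw [h11] at h4
      linear_combination h4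
    rw [h10]
    exact add_mem (add_mem (Ideal.mul_mem_right _ _ hj') (Ideal.mul_mem_right _ _ (hswJ _ hj')))
      hj₁J
  have h9 : 2 * y - α' * P a + sw a b α' * P b ∈ J := by
    refine rg_mon r P (reg2_tri_mono hTri (Finset.subset_univ B)) a (fun h => hBa a h rfl) ?_ ?_ ?_
      _ h8
    · intro c hcB hle
      exact hTri.free a (Finset.mem_univ a) c (Finset.mem_univ c) (hBa c hcB).symm hle
    · have h10 := mon_sub (A := A) hab 0
      rwa [C_0, add_zero] at h10
    · intro c hcB _
      have h10 := free_sub (A := A) (hBa c hcB) (hBb c hcB) 0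
      rwa [C_0, add_zero] at h10
  have h10 : y = C (algebraMap ℚ A (1 / 2)) *
      ((2 * y - α' * P a + sw a b α' * P b) + (α' * P a - sw a b α' * P b)) := by
    have h11 : (C (algebraMap ℚ A (1 / 2)) : MvPolynomial M A) * 2 = 1 := by
      rw [show (2 : MvPolynomial M A) = C (algebraMap ℚ A 2) by
        rw [map_ofNat, map_ofNat], ← C_mul, ← map_mul]
      norm_num
    linear_combination (-y) * h11
  have hmem : ∀ c, P c ∈ TC col L Z r := fun c => Ideal.subset_span ⟨c, rfl⟩
  rw [h10]
  exact Ideal.mul_mem_left _ _ (add_mem (hJle h9)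
    (sub_mem (Ideal.mul_mem_left _ _ (hmem a)) (Ideal.mul_mem_left _ _ (hmem b))))

end Vale.Agent.P291.K
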