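import Vale.Agent.P291.K.AS1

set_option autoImplicit false
set_option linter.unusedSectionVars false

/-! Alternating elements modulo a symmetric triangular ideal, second part. -/

namespace Vale.Agent.P291.K

open MvPolynomial

variable {M A I : Type} [CommRing A] [IsDomain A] [Algebra ℚ A] [DecidableEq M] [Fintype M]
  (col : M → I) (L : I → I → Multiset A) (Z : I → Multiset A) (r : M → ℚ)

lemma as2_sw_sw (a b : M) (f : MvPolynomial M A) : sw a b (sw a b f) = f := by
  have h : (⇑(Equiv.swap a b) ∘ ⇑(Equiv.swap a b) : M → M) = id := by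
    funext c
    simp
  rw [sw, rename_rename, h, rename_id_apply]

lemma as2_sw_X (a b c : M) : sw a b (X c : MvPolynomial M A) = X (Equiv.swap a b c) := by
  rw [sw, rename_X]

lemma as2_X_sub_ne {a b : M} (hab : a ≠ b) : (X a - X b : MvPolynomial M A) ≠ 0 := by
  intro h
  exact hab (X_injective (sub_eq_zero.mp h))

/-- the colon ideal is stable under divided differences -/
theorem dd_closed {a b : M} (hab : a ≠ b) (hc : col a = col b) (hr : r a = r b)
    {y g g' : MvPolynomial M A} (hy : sw a b y = -y) (hg : g - sw a b g = (X a - X b) * g')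
    (h : g * y ∈ TC col L Z r) : g' * y ∈ TC col L Z r := by
  have h1 : (X a - X b) * (g' * y) ∈ TC col L Z r := by
    have h2 := sw_TC col L Z r hc hr h
    rw [map_mul, hy] at h2
    have h3 := Ideal.add_mem _ h h2
    have h4 : g * y + sw a b g * -y = (X a - X b) * (g' * y) := by
      rw [← mul_assoc, ← hg]
      ring
    rwa [h4] at h3
  have h5 : sw a b g' = g' := by
    have h6 := congrArg (sw a b) hg
    rw [map_sub, as2_sw_sw, map_mul, map_sub, as2_sw_X, as2_sw_X, Equiv.swap_apply_left,
      Equiv.swap_apply_right] at h6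
    have h7 : (X a - X b) * (sw a b g' - g') = 0 := by
      have h8 : (X a - X b) * sw a b g' = (X a - X b) * g' := by
        rw [← hg]
        have : (X a - X b) * sw a b g' = -((X b - X a) * sw a b g') := by ring
        rw [this, ← h6]
        ring
      rw [mul_sub, h8, sub_self]
    rcases mul_eq_zero.mp h7 with h8 | h8
    · exact absurd h8 (as2_X_sub_ne hab)
    · exact sub_eq_zero.mp h8
  refine propP col L Z r hab hc hr ?_ h1
  rw [map_mul, h5, hy]
  ring

/-- the sums of the induction -/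
noncomputable def as2S (G₁ G₂ : Finset M) (a : M) : MvPolynomial M A :=
  ∑ i ∈ insert a G₂, ∏ c ∈ G₁, (X c - X i)

lemma as2_step (G₁ : Finset M) {a : M} {y t : MvPolynomial M A} :
    ∀ G₂ : Finset M, Disjoint G₁ G₂ → a ∉ G₁ → a ∉ G₂ →
    (∀ b ∈ G₁, col b = col a ∧ r b = r a) → (∀ b ∈ G₁, sw b a y = -y) →
    (∀ b ∈ G₁, sw b a t = t) → as2S G₁ G₂ a * t * y ∈ TC col L Z r → t * y ∈ TC col L Z r := by
  induction G₁ using Finset.induction_on with
  | empty =>
    intro G₂ _ _ _ _ _ _ h
    have h1 : (as2S ∅ G₂ a : MvPolynomial M A) = ((Finset.card (insert a G₂) : ℕ) :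
        MvPolynomial M A) := by
      rw [as2S]
      simp only [Finset.prod_empty, Finset.sum_const, nsmul_eq_mul, mul_one]
    have h2 : ((Finset.card (insert a G₂) : ℕ) : ℚ) ≠ 0 := by
      exact_mod_cast (Finset.card_pos.mpr (Finset.insert_nonempty a G₂)).ne'
    generalize Finset.card (insert a G₂) = n at h1 h2
    have h3 : C (algebraMap ℚ A ((n : ℚ)⁻¹)) * ((n : ℕ) : MvPolynomial M A) = 1 := by
      have : ((n : ℕ) : MvPolynomial M A) = C (algebraMap ℚ A (n : ℚ)) := by
        rw [map_natCast, map_natCast]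
      rw [this, ← C_mul, ← map_mul, inv_mul_cancel₀ h2, map_one, C_1]
    have h4 : t * y = C (algebraMap ℚ A ((n : ℚ)⁻¹)) * (as2S ∅ G₂ a * t * y) := by
      rw [h1, mul_assoc, ← mul_assoc, h3, one_mul]
    rw [h4]
    exact Ideal.mul_mem_left _ _ h
  | insert c₀ G₁ hc₀ ih =>
    intro G₂ hd ha₁ ha₂ hG hy ht h
    have hca : c₀ ≠ a := fun h => ha₁ (h ▸ Finset.mem_insert_self _ _)
    have haG : a ∉ G₁ := fun h => ha₁ (Finset.mem_insert_of_mem h)
    have hc₂ : c₀ ∉ G₂ := Finset.disjoint_left.mp hd (Finset.mem_insert_self _ _)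
    have hd' : Disjoint G₁ G₂ := Finset.disjoint_of_subset_left (Finset.subset_insert _ _) hd
    refine ih (insert c₀ G₂) ?_ haG ?_ (fun b hb => hG b (Finset.mem_insert_of_mem hb))
      (fun b hb => hy b (Finset.mem_insert_of_mem hb))
      (fun b hb => ht b (Finset.mem_insert_of_mem hb)) ?_
    · rw [Finset.disjoint_insert_right]
      exact ⟨hc₀, hd'⟩
    · rw [Finset.mem_insert, not_or]
      exact ⟨hca.symm, ha₂⟩
    · refine dd_closed col L Z r hca (hG c₀ (Finset.mem_insert_self _ _)).1
        (hG c₀ (Finset.mem_insert_self _ _)).2 (hy c₀ (Finset.mem_insert_self _ _)) ?_ h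
      have e1 : ∀ i, (i = a ∨ i = c₀ ∨ (i ≠ a ∧ i ≠ c₀)) := fun i => by tauto
      have sx : ∀ i, i ≠ a → i ≠ c₀ → sw c₀ a (X i : MvPolynomial M A) = X i := by
        intro i h1 h2
        rw [as2_sw_X, Equiv.swap_apply_of_ne_of_ne h2 h1]
      have sa : sw c₀ a (X a : MvPolynomial M A) = X c₀ := by
        rw [as2_sw_X, Equiv.swap_apply_right]
      have sc : sw c₀ a (X c₀ : MvPolynomial M A) = X a := by
        rw [as2_sw_X, Equiv.swap_apply_left]
      have hX : ∀ c ∈ G₁, sw c₀ a (X c : MvPolynomial M A) = X c := fun c hc =>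
        sx c (fun h => haG (h ▸ hc)) (fun h => hc₀ (h ▸ hc))
      have s1 : (as2S (insert c₀ G₁) G₂ a : MvPolynomial M A) =
          (X c₀ - X a) * ∏ c ∈ G₁, (X c - X a)
          + ∑ i ∈ G₂, (X c₀ - X i) * ∏ c ∈ G₁, (X c - X i) := by
        rw [as2S, Finset.sum_insert ha₂]
        rw [Finset.prod_insert hc₀]
        congr 1
        exact Finset.sum_congr rfl fun i _ => Finset.prod_insert hc₀
      have s2 : sw c₀ a (as2S (insert c₀ G₁) G₂ a : MvPolynomial M A) =
          (X a - X c₀) * ∏ c ∈ G₁, (X c - X c₀)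
          + ∑ i ∈ G₂, (X a - X i) * ∏ c ∈ G₁, (X c - X i) := by
        rw [s1, map_add, map_mul, map_sub, sa, sc, map_prod, map_sum]
        congr 1
        · congr 1
          refine Finset.prod_congr rfl fun c hc => ?_
          rw [map_sub, hX c hc, sa]
        · refine Finset.sum_congr rfl fun i hi => ?_
          have hi' : sw c₀ a (X i : MvPolynomial M A) = X i :=
            sx i (fun h => ha₂ (h ▸ hi)) (fun h => hc₂ (h ▸ hi))
          rw [map_mul, map_sub, sc, hi', map_prod]
          congr 1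
          refine Finset.prod_congr rfl fun c hc => ?_
          rw [map_sub, hX c hc, hi']
      have s3 : (as2S G₁ (insert c₀ G₂) a : MvPolynomial M A) =
          ∏ c ∈ G₁, (X c - X a) + (∏ c ∈ G₁, (X c - X c₀)
          + ∑ i ∈ G₂, ∏ c ∈ G₁, (X c - X i)) := by
        rw [as2S, Finset.sum_insert (by
          rw [Finset.mem_insert, not_or]
          exact ⟨hca.symm, ha₂⟩), Finset.sum_insert hc₂]
      have s4 : ∑ i ∈ G₂, (X c₀ - X i) * ∏ c ∈ G₁, (X c - X i)
          - ∑ i ∈ G₂, (X a - X i) * ∏ c ∈ G₁, (X c - X i) =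
          (X c₀ - X a : MvPolynomial M A) * ∑ i ∈ G₂, ∏ c ∈ G₁, (X c - X i) := by
        rw [← Finset.sum_sub_distrib, Finset.mul_sum]
        refine Finset.sum_congr rfl fun i _ => ?_
        ring
      rw [map_mul, ht c₀ (Finset.mem_insert_self _ _), ← sub_mul, ← mul_assoc]
      congr 1
      rw [s2, s1, s3]
      have e2 : (X c₀ - X a : MvPolynomial M A) * ∏ c ∈ G₁, (X c - X a)
          + ∑ i ∈ G₂, (X c₀ - X i) * ∏ c ∈ G₁, (X c - X i)
          - ((X a - X c₀) * ∏ c ∈ G₁, (X c - X c₀)
          + ∑ i ∈ G₂, (X a - X i) * ∏ c ∈ G₁, (X c - X i)) =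
          (X c₀ - X a) * ∏ c ∈ G₁, (X c - X a) + (X c₀ - X a) * ∏ c ∈ G₁, (X c - X c₀)
          + (∑ i ∈ G₂, (X c₀ - X i) * ∏ c ∈ G₁, (X c - X i)
          - ∑ i ∈ G₂, (X a - X i) * ∏ c ∈ G₁, (X c - X i)) := by ring
      rw [e2, s4]
      ring

/-- Lagrange: for `G = G₁ ⊔ G₂` one has `(∑ i ∈ insert a G₂, ∏ c ∈ G₁, (x c - x i)) t y ∈ TC`, by
induction on `G₂`: move `c` from `G₁` to `G₂` by `dd_closed` for the swap of `c` and `a` -/
theorem lagrange (G : Finset M) {a : M} (ha : a ∉ G)
    (hG : ∀ b ∈ G, col b = col a ∧ r b = r a) {y t : MvPolynomial M A}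
    (hy : ∀ b ∈ G, sw b a y = -y) (ht : ∀ b ∈ G, sw b a t = t)
    (h : (∏ c ∈ G, (X c - X a)) * t * y ∈ TC col L Z r) : t * y ∈ TC col L Z r := by
  refine as2_step col L Z r G ∅ (Finset.disjoint_empty_right _) ha (Finset.notMem_empty _) hG hy
    ht ?_
  have h1 : (as2S G ∅ a : MvPolynomial M A) = ∏ c ∈ G, (X c - X a) := by
    rw [as2S, insert_empty_eq, Finset.sum_singleton]
  rwa [h1]

open Classical in
/-- the factor `c(s)` -/
noncomputable def as2c {E : Type} (e : M → E) (σ : M → ℕ) (s : M) : MvPolynomial M A :=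
  ∏ b ∈ Finset.univ.filter (fun b => e b = e s ∧ σ b < σ s), (X b - X s)

lemma as2_swE {E : Type} (e : M → E) (he : ∀ a b, e a = e b → col a = col b ∧ r a = r b)
    {a b : M} (hab : e a = e b) :
    sw a b (pp col (0 : A) fun a b => e a ≠ e b) = pp col 0 fun a b => e a ≠ e b := by
  have h1 : ∀ c, e (Equiv.swap a b c) = e c := by
    intro c
    rcases eq_or_ne c a with rfl | h1
    · rw [Equiv.swap_apply_left, hab]
    rcases eq_or_ne c b with rfl | h2
    · rw [Equiv.swap_apply_right, hab]
    rw [Equiv.swap_apply_of_ne_of_ne h1 h2]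
  refine rename_pp col (Equiv.swap a b) (fun c => (he _ _ (h1 c)).1) 0 _ fun c d => ?_
  rw [h1, h1]

lemma as2_swc {E : Type} (e : M → E) (σ : M → ℕ) (hσ : Function.Injective σ) {a b s : M}
    (hab : e a = e b) (ha : σ a < σ s) (hb : σ b < σ s) :
    sw a b (as2c e σ s : MvPolynomial M A) = as2c e σ s := by
  classical
  have hs : Equiv.swap a b s = s := Equiv.swap_apply_of_ne_of_ne
    (fun h => by rw [h] at ha; exact lt_irrefl _ ha) (fun h => by rw [h] at hb; exact lt_irrefl _ hb)
  have h1 : ∀ c, e (Equiv.swap a b c) = e c := by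
    intro c
    rcases eq_or_ne c a with rfl | h1
    · rw [Equiv.swap_apply_left, hab]
    rcases eq_or_ne c b with rfl | h2
    · rw [Equiv.swap_apply_right, hab]
    rw [Equiv.swap_apply_of_ne_of_ne h1 h2]
  have h2 : ∀ c, σ c < σ s → σ (Equiv.swap a b c) < σ s := by
    intro c hc
    rcases eq_or_ne c a with rfl | h1
    · rwa [Equiv.swap_apply_left]
    rcases eq_or_ne c b with rfl | h2
    · rwa [Equiv.swap_apply_right]
    rwa [Equiv.swap_apply_of_ne_of_ne h1 h2]
  rw [as2c, map_prod]
  refine Finset.prod_bij' (fun c _ => Equiv.swap a b c) (fun c _ => Equiv.swap a b c)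
    (fun c hc => ?_) (fun c hc => ?_) (fun c _ => by simp) (fun c _ => by simp) (fun c _ => ?_)
  · rw [Finset.mem_filter] at hc ⊢
    exact ⟨Finset.mem_univ _, by rw [h1]; exact hc.2.1, h2 c hc.2.2⟩
  · rw [Finset.mem_filter] at hc ⊢
    exact ⟨Finset.mem_univ _, by rw [h1]; exact hc.2.1, h2 c hc.2.2⟩
  · rw [map_sub, as2_sw_X, as2_sw_X, hs]

lemma as2_remove {E : Type} (e : M → E) (he : ∀ a b, e a = e b → col a = col b ∧ r a = r b)
    (σ : M → ℕ) (hσ : Function.Injective σ) {y : MvPolynomial M A}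
    (hy : ∀ a b, a ≠ b → e a = e b → sw a b y = -y)
    (h : (pp col (0 : A) fun a b => e a ≠ e b) * (∏ s, as2c e σ s) * y ∈ TC col L Z r) (n : ℕ) :
    (pp col (0 : A) fun a b => e a ≠ e b) *
      (∏ s ∈ Finset.univ.filter (fun s => n ≤ σ s), as2c e σ s) * y ∈ TC col L Z r := by
  classical
  induction n with
  | zero =>
    have h1 : Finset.univ.filter (fun s => 0 ≤ σ s) = Finset.univ := by
      ext s
      simp
    rwa [h1]
  | succ n ih =>
    by_cases hs : ∃ s, σ s = n
    · obtain ⟨s, hs⟩ := hs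
      have h1 : Finset.univ.filter (fun s => n ≤ σ s) =
          insert s (Finset.univ.filter (fun s => n + 1 ≤ σ s)) := by
        ext c
        simp only [Finset.mem_filter, Finset.mem_univ, true_and, Finset.mem_insert]
        constructor
        · intro h2
          rcases Nat.eq_or_lt_of_le h2 with h3 | h3
          · left
            exact hσ (by rw [← h3, hs])
          · right
            exact h3
        · rintro (rfl | h2)
          · exact hs.ge
          · omega
      have h2 : s ∉ Finset.univ.filter (fun s => n + 1 ≤ σ s) := by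
        rw [Finset.mem_filter, not_and]
        intro _
        omega
      rw [h1, Finset.prod_insert h2] at ih
      refine lagrange col L Z r (Finset.univ.filter (fun b => e b = e s ∧ σ b < σ s)) (a := s)
        ?_ ?_ ?_ ?_ ?_
      · rw [Finset.mem_filter]
        exact fun h3 => lt_irrefl _ h3.2.2
      · intro b hb
        rw [Finset.mem_filter] at hb
        exact he _ _ hb.2.1
      · intro b hb
        rw [Finset.mem_filter] at hb
        refine hy b s (fun h3 => ?_) hb.2.1
        rw [h3] at hb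
        exact lt_irrefl _ hb.2.2
      · intro b hb
        rw [Finset.mem_filter] at hb
        rw [map_mul, as2_swE col r e he hb.2.1, map_prod]
        congr 1
        refine Finset.prod_congr rfl fun c hc => ?_
        rw [Finset.mem_filter] at hc
        exact as2_swc e σ hσ hb.2.1 (by omega) (by omega)
      · have h3 : (∏ c ∈ Finset.univ.filter (fun b => e b = e s ∧ σ b < σ s),
            (X c - X s : MvPolynomial M A)) = as2c e σ s := rfl
        rw [h3]
        have h4 : (as2c e σ s : MvPolynomial M A) * ((pp col (0 : A) fun a b => e a ≠ e b) *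
            ∏ s ∈ Finset.univ.filter (fun s => n + 1 ≤ σ s), as2c e σ s) * y =
            (pp col (0 : A) fun a b => e a ≠ e b) * (as2c e σ s *
            ∏ s ∈ Finset.univ.filter (fun s => n + 1 ≤ σ s), as2c e σ s) * y := by ring
        rw [h4]
        exact ih
    · have h1 : Finset.univ.filter (fun s => n ≤ σ s) =
          Finset.univ.filter (fun s => n + 1 ≤ σ s) := by
        ext c
        simp only [Finset.mem_filter, Finset.mem_univ, true_and]
        have : σ c ≠ n := fun h2 => hs ⟨c, h2⟩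
        omega
      rwa [h1] at ih

/-- Let `E'` be the product over all ordered pairs with `e a ≠ e b`; it is invariant under the
swaps with `e a = e b`.  Let `c(s) = ∏ (x b - x s)` over `b` with `e b = e s`, `σ b < σ s`.
Then `∏ c(s) E' y ∈ TC` and the factors `c(s)` are removed one after the other, in the order of
increasing `σ s`, by `lagrange` with `t = E' ∏ c(s')`, `σ s < σ s'`. -/
theorem as_main {E : Type} (e : M → E) (he : ∀ a b, e a = e b → col a = col b ∧ r a = r b)
    (σ : M → ℕ) (hσ : Function.Injective σ) {y : MvPolynomial M A}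
    (hy : ∀ a b, a ≠ b → e a = e b → sw a b y = -y)
    (h : (pp col (0 : A) fun a b => σ a < σ b) * y ∈ TC col L Z r) :
    (pp col (0 : A) fun a b => e a ≠ e b) * y ∈ TC col L Z r := by
  classical
  have c1 : (pp col (0 : A) fun a b => e a = e b ∧ σ a < σ b) = ∏ s, as2c e σ s := by
    rw [pp, Finset.prod_comm]
    refine Finset.prod_congr rfl fun s _ => ?_
    rw [as2c, Finset.prod_filter]
    refine Finset.prod_congr rfl fun b _ => ?_
    by_cases h1 : e b = e s ∧ σ b < σ s
    · have h2 : b ≠ s := fun h3 => by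
        rw [h3] at h1
        exact lt_irrefl _ h1.2
      rw [if_pos ⟨h2, (he _ _ h1.1).1, h1⟩, if_pos h1, C_0, add_zero]
    · rw [if_neg (fun h2 => h1 h2.2.2), if_neg h1]
  have c2 : (pp col (0 : A) fun a b => e a ≠ e b ∧ σ a < σ b) *
      (pp col (0 : A) fun a b => e a = e b ∧ σ a < σ b) = pp col 0 fun a b => σ a < σ b := by
    rw [pp_mul col 0 _ _ fun a b h1 => h1.1.1 h1.2.1]
    congr 1
    funext a b
    apply propext
    tauto
  have c3 : (pp col (0 : A) fun a b => e a ≠ e b ∧ σ a < σ b) *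
      (pp col (0 : A) fun a b => e a ≠ e b ∧ ¬ σ a < σ b) = pp col 0 fun a b => e a ≠ e b := by
    rw [pp_mul col 0 _ _ fun a b h1 => h1.2.2 h1.1.2]
    congr 1
    funext a b
    apply propext
    tauto
  have c4 : (pp col (0 : A) fun a b => e a ≠ e b) * (∏ s, as2c e σ s) * y ∈ TC col L Z r := by
    have : (pp col (0 : A) fun a b => e a ≠ e b) * (∏ s, as2c e σ s) * y =
        (pp col (0 : A) fun a b => e a ≠ e b ∧ ¬ σ a < σ b) *
        ((pp col (0 : A) fun a b => σ a < σ b) * y) := by
      rw [← c1, ← c2, ← c3]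
      ring
    rw [this]
    exact Ideal.mul_mem_left _ _ h
  have c5 := as2_remove col L Z r e he σ hσ hy c4 ((∑ s, σ s) + 1)
  have c6 : Finset.univ.filter (fun s => (∑ s, σ s) + 1 ≤ σ s) = ∅ := by
    rw [Finset.filter_eq_empty_iff]
    intro s _
    have : σ s ≤ ∑ s, σ s := Finset.single_le_sum (fun _ _ => Nat.zero_le _) (Finset.mem_univ s)
    omega
  rwa [c6, Finset.prod_empty, mul_one] at c5

end Vale.Agent.P291.K
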