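import Vale.Agent.P291.K.AS1

set_option autoImplicit false
set_option linter.unusedSectionVars false

/-! The mesh relations. -/

namespace Vale.Agent.P291.K

open MvPolynomial

section
variable {M A I : Type} [CommRing A] [IsDomain A] [Algebra ℚ A] [DecidableEq M] [Fintype M]
  [DecidableEq I]
  (col : M → I) (L : I → I → Multiset A) (Z : I → Multiset A) (h : A)

/-- relation of rank `r` -/
noncomputable def PC {α : Type} [LinearOrder α] (r : M → α) (b : M) : MvPolynomial M A :=
  Pr (fun b c => L (col b) (col c)) (fun b => Z (col b)) (up r) b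

/-- weight of the pair `b → c` -/
noncomputable def DC (b c : M) : MvPolynomial M A := Dw (fun b c => L (col b) (col c)) b c

/-- the marks after the `k`-th one -/
def Rs (σ : M → ℕ) (k : ℕ) : Finset M := Finset.univ.filter fun c => k < σ c

/-- product of the weights `d → u` of the marks `d ∈ R` and of the shifted framing weight, as a
polynomial in the position of `u` (of colour `i`) -/
noncomputable def HH (R : Finset M) (i : I) : Polynomial (MvPolynomial M A) :=
  (∏ d ∈ R, ((L (col d) i).map fun l =>
    Polynomial.C (X d) - Polynomial.X + Polynomial.C (C l)).prod) *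
  ((Z i).map fun z => Polynomial.X - Polynomial.C (C h) - Polynomial.C (C z)).prod

/-- shifted framing weight -/
noncomputable def Zs (u : M) : MvPolynomial M A :=
  ((Z (col u)).map fun z => X u - C h - C z).prod

/-- the marks of larger rank at the stage `k` -/
lemma mem_up_rk (σ : M → ℕ) (hσ : Function.Injective σ) (r : M → ℚ) (k : ℕ) (b c : M) :
    c ∈ up (rk σ r k) b ↔ (σ b < k ∧ σ b < σ c) ∨ (k ≤ σ b ∧ k ≤ σ c ∧ r b < r c) := by
  have hbc : σ b = σ c → ¬ r b < r c := by
    intro h
    rw [hσ h]
    exact lt_irrefl _
  have key : c ∈ up (rk σ r k) b ↔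
      (min (σ b) k < min (σ c) k ∨ (min (σ b) k = min (σ c) k ∧ r b < r c)) := by
    unfold up rk
    simp only [Finset.mem_filter, Finset.mem_univ, true_and, Prod.Lex.toLex_lt_toLex]
  rw [key]
  constructor
  · rintro (h1 | ⟨h1, h2⟩)
    · left
      omega
    · by_cases hb : σ b < k
      · exfalso
        exact hbc (by omega) h2
      · right
        exact ⟨by omega, by omega, h2⟩
  · rintro (⟨h1, h2⟩ | ⟨h1, h2, h3⟩)
    · left
      omega
    · right
      exact ⟨by omega, h3⟩

end

end Vale.Agent.P291.K
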