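import Vale.Agent.P291.K.CDefs

set_option autoImplicit false
set_option linter.unusedSectionVars false

/-! The mesh relations. -/

namespace Vale.Agent.P291.K

open MvPolynomial

section
variable {M A I : Type} [CommRing A] [IsDomain A] [Algebra ℚ A] [DecidableEq M] [Fintype M]
  [DecidableEq I]
  (col : M → I) (L : I → I → Multiset A) (Z : I → Multiset A) (h : A)

/-- the colon step: move the mark `u` of order `k` in front of the marks of larger order -/
theorem colon_step (σ : M → ℕ) (hσ : Function.Injective σ) (r : M → ℚ) {k : ℕ} {u : M}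
    (hu : σ u = k) {y : MvPolynomial M A}
    (hy : (∏ d ∈ (Rs σ k).filter (fun d => r d < r u), DC col L d u) * y ∈
      TC col L Z (rk σ r k)) :
    (∏ c ∈ (Rs σ k).filter (fun c => ¬ r u < r c), DC col L u c) * y ∈
      TC col L Z (rk σ r (k + 1)) := by
  set V : Finset M := (Rs σ k).filter (fun d => r d < r u) with hV
  have hRs : ∀ c, c ∈ Rs σ k ↔ k < σ c := fun c => by
    unfold Rs; simp only [Finset.mem_filter, Finset.mem_univ, true_and]
  have hVm : ∀ c, c ∈ V ↔ k < σ c ∧ r c < r u := fun c => by
    rw [hV, Finset.mem_filter, hRs]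
  have huV : u ∉ V := fun h => by
    have := ((hVm u).mp h).1
    omega
  set L' : M → M → Multiset A := fun b c => L (col b) (col c) with hL'
  set Z' : M → Multiset A := fun b => Z (col b) with hZ'
  set T : M → Finset M := fun b => if b ∈ V then (up (rk σ r k) b).erase u else up (rk σ r k) b
    with hT
  -- the relations at the stages
  have e1 : ∀ v ∈ V, Pr L' Z' (up (rk σ r k)) v = DC col L v u * Pr L' Z' T v := by
    intro v hv
    have hv' := (hVm v).mp hv
    have hmem : u ∈ up (rk σ r k) v := by
      rw [mem_up_rk σ hσ]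
      exact Or.inr ⟨by omega, by omega, hv'.2⟩
    unfold Pr DC
    rw [hT]
    simp only [if_pos hv]
    rw [← Finset.mul_prod_erase _ _ hmem]
    ring
  have e2 : ∀ b ∉ V, Pr L' Z' (up (rk σ r k)) b = Pr L' Z' T b := by
    intro b hb
    unfold Pr
    rw [hT]
    simp only [if_neg hb]
  have hTup : ∀ b, ∀ c ∈ T b, rk σ r k b < rk σ r k c := by
    intro b c hc
    have hc' : c ∈ up (rk σ r k) b := by
      rw [hT] at hc
      simp only at hc
      split_ifs at hc with hb
      · exact Finset.mem_of_mem_erase hc
      · exact hc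
    unfold up at hc'
    exact (Finset.mem_filter.mp hc').2
  have hup : ∀ b, ∀ c ∈ up (rk σ r k) b, rk σ r k b < rk σ r k c := by
    intro b c hc
    unfold up at hc
    exact (Finset.mem_filter.mp hc).2
  have hne : ∀ v ∈ V, v ≠ u := fun v hv h => huV (h ▸ hv)
  have key : y ∈ Ideal.span (Set.range (Pr L' Z' T)) := by
    refine colon (rk σ r k) (Pr L' Z' (up (rk σ r k))) (Pr L' Z' T) V (fun d => DC col L d u)
      e1 e2 (tri_Pr L' Z' _ _ hup) (tri_Pr L' Z' _ _ hTup) ?_ ?_ hy
    · intro v hv
      exact mon_Dw _ (hne v hv)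
    · intro v hv b hb
      have hbv : b ≠ v := fun h => by
        rw [h] at hb
        exact lt_irrefl _ hb
      have hv' := (hVm v).mp hv
      have hvu : rk σ r k v < rk σ r k u := by
        have hmem : u ∈ up (rk σ r k) v := by
          rw [mem_up_rk σ hσ]
          exact Or.inr ⟨by omega, by omega, hv'.2⟩
        exact hup v u hmem
      have hbu : b ≠ u := fun h => by
        rw [h] at hb
        exact lt_irrefl _ (hb.trans hvu)
      exact free_Dw _ hbv hbu
  -- the relations of the next stage
  have e3 : ∀ b, b ≠ u → Pr L' Z' T b = Pr L' Z' (up (rk σ r (k + 1))) b := by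
    intro b hb
    have hσb : σ b ≠ k := fun h => hb (hσ (by rw [h, hu]))
    unfold Pr
    congr 1
    refine Finset.prod_congr ?_ fun _ _ => rfl
    rw [hT]
    simp only
    by_cases hbV : b ∈ V
    · have hb' := (hVm b).mp hbV
      rw [if_pos hbV]
      ext c
      rw [Finset.mem_erase, mem_up_rk σ hσ, mem_up_rk σ hσ]
      constructor
      · rintro ⟨h0, h1 | ⟨h1, h2, h3⟩⟩
        · omega
        · have : σ c ≠ k := fun h => h0 (hσ (by rw [h, hu]))
          exact Or.inr ⟨by omega, by omega, h3⟩
      · rintro (h1 | ⟨h1, h2, h3⟩)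
        · omega
        · refine ⟨fun h => ?_, Or.inr ⟨by omega, by omega, h3⟩⟩
          rw [h, hu] at h2
          omega
    · rw [if_neg hbV]
      ext c
      rw [mem_up_rk σ hσ, mem_up_rk σ hσ]
      constructor
      · rintro (h1 | ⟨h1, h2, h3⟩)
        · exact Or.inl ⟨by omega, h1.2⟩
        · refine Or.inr ⟨by omega, ?_, h3⟩
          by_contra hlt
          have hck : σ c = k := by omega
          have hcu : c = u := hσ (by rw [hck, hu])
          rw [hcu] at h3
          exact hbV ((hVm b).mpr ⟨by omega, h3⟩)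
      · rintro (h1 | ⟨h1, h2, h3⟩)
        · exact Or.inl ⟨by omega, h1.2⟩
        · exact Or.inr ⟨by omega, by omega, h3⟩
  have e4 : (∏ c ∈ (Rs σ k).filter (fun c => ¬ r u < r c), DC col L u c) * Pr L' Z' T u =
      Pr L' Z' (up (rk σ r (k + 1))) u := by
    have h1 : T u = (Rs σ k).filter (fun c => r u < r c) := by
      rw [hT]
      simp only [if_neg huV]
      ext c
      rw [mem_up_rk σ hσ, Finset.mem_filter, hRs]
      constructor
      · rintro (h1 | ⟨h1, h2, h3⟩)
        · omega
        · refine ⟨?_, h3⟩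
          by_contra hlt
          have hck : σ c = k := by omega
          have hcu : c = u := hσ (by rw [hck, hu])
          rw [hcu] at h3
          exact lt_irrefl _ h3
      · rintro ⟨h1, h2⟩
        exact Or.inr ⟨by omega, by omega, h2⟩
    have h2 : up (rk σ r (k + 1)) u = Rs σ k := by
      ext c
      rw [mem_up_rk σ hσ, hRs]
      constructor
      · rintro (h1 | ⟨h1, h2, h3⟩) <;> omega
      · intro h1
        exact Or.inl ⟨by omega, by omega⟩
    unfold Pr
    rw [h1, h2, ← Finset.prod_filter_mul_prod_filter_not (Rs σ k) (fun c => r u < r c)]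
    unfold DC
    ring
  -- conclusion
  unfold TC TI
  refine Submodule.span_induction (p := fun y _ =>
    (∏ c ∈ (Rs σ k).filter (fun c => ¬ r u < r c), DC col L u c) * y ∈
      Ideal.span (Set.range (Pr L' Z' (up (rk σ r (k + 1)))))) ?_ ?_ ?_ ?_ key
  · rintro _ ⟨b, rfl⟩
    by_cases hb : b = u
    · rw [hb, e4]
      exact Ideal.subset_span ⟨u, rfl⟩
    · rw [e3 b hb]
      exact Ideal.mul_mem_left _ _ (Ideal.subset_span ⟨b, rfl⟩)
  · rw [mul_zero]
    exact Ideal.zero_mem _
  · intro a b _ _ ha hb
    rw [mul_add]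
    exact Ideal.add_mem _ ha hb
  · intro a b _ hb
    rw [smul_eq_mul, mul_left_comm]
    exact Ideal.mul_mem_left _ _ hb

end

end Vale.Agent.P291.K
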