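import Mathlib

set_option autoImplicit false

/-! Directed weights with labels, cut ideals and triangular ideals.
`M` is the set of marks, `A` the ring of flavor parameters. -/

namespace Vale.Agent.P291.K

open MvPolynomial

section
variable {M A : Type} [CommRing A]

/-- weight of the pair `b → c` with labels `L b c` -/
noncomputable def Dw (L : M → M → Multiset A) (b c : M) : MvPolynomial M A :=
  ((L b c).map fun l => X b - X c + C l).prod

/-- framing weight at `b` with roots `Z b` -/
noncomputable def Zw (Z : M → Multiset A) (b : M) : MvPolynomial M A :=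
  ((Z b).map fun z => X b - C z).prod

/-- relation at `b`: framing weights and weights of the pairs `b → c`, `c ∈ T b` -/
noncomputable def Pr (L : M → M → Multiset A) (Z : M → Multiset A) (T : M → Finset M) (b : M) :
    MvPolynomial M A := Zw Z b * ∏ c ∈ T b, Dw L b c

/-- the ideal of all relations -/
noncomputable def TI (L : M → M → Multiset A) (Z : M → Multiset A) (T : M → Finset M) :
    Ideal (MvPolynomial M A) := Ideal.span (Set.range (Pr L Z T))

/-- translation of the variable `b` -/
noncomputable def tau [DecidableEq M] (b : M) :
    MvPolynomial M A →ₐ[A] Polynomial (MvPolynomial M A) :=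
  aeval fun c => if c = b then Polynomial.C (X c) + Polynomial.X else Polynomial.C (X c)

/-- `f` does not depend on the variable `b` -/
def Free [DecidableEq M] (b : M) (f : MvPolynomial M A) : Prop := tau b f = Polynomial.C f

/-- `f` is monic in the variable `b` -/
def Mon [DecidableEq M] (b : M) (f : MvPolynomial M A) : Prop := (tau b f).Monic

/-- `q` is regular modulo `I` -/
def Rg (q : MvPolynomial M A) (I : Ideal (MvPolynomial M A)) : Prop := ∀ y, q * y ∈ I → y ∈ I

/-- interchange of two variables -/
noncomputable def sw [DecidableEq M] (a b : M) : MvPolynomial M A →ₐ[A] MvPolynomial M A :=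
  rename (Equiv.swap a b)

end

section
variable {M A : Type} [CommRing A] [Fintype M] [DecidableEq M]

/-- the marks of larger rank -/
def up {α : Type} [LinearOrder α] (r : M → α) (b : M) : Finset M :=
  Finset.univ.filter fun c => r b < r c

/-- the weight of a cut -/
noncomputable def cut (L : M → M → Multiset A) (Z : M → Multiset A) (N : Finset M) :
    MvPolynomial M A := (∏ b ∈ N, Zw Z b) * ∏ b ∈ N, ∏ c ∈ Nᶜ, Dw L b c

/-- the cut ideal -/
noncomputable def KI (L : M → M → Multiset A) (Z : M → Multiset A) : Ideal (MvPolynomial M A) :=
  Ideal.span {p | ∃ N : Finset M, N.Nonempty ∧ p = cut L Z N}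

/-- triangular system of relations, indexed by `B` -/
structure Tri {α : Type} [LinearOrder α] (r : M → α) (P : M → MvPolynomial M A)
    (B : Finset M) : Prop where
  mon : ∀ b ∈ B, Mon b (P b)
  free : ∀ b ∈ B, ∀ c ∈ B, b ≠ c → r b ≤ r c → Free b (P c)

open Classical in
/-- product of the factors `x a - x b + s` over the ordered pairs of distinct marks of the same
colour with the property `p` -/
noncomputable def pp {I : Type} (col : M → I) (s : A) (p : M → M → Prop) : MvPolynomial M A :=
  ∏ a, ∏ b, if a ≠ b ∧ col a = col b ∧ p a b then X a - X b + C s else 1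

/-- ranks at the `k`-th stage -/
def rk (σ : M → ℕ) (r : M → ℚ) (k : ℕ) (b : M) : ℕ ×ₗ ℚ := toLex (min (σ b) k, r b)

end

end Vale.Agent.P291.K
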