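import Vale.Agent.P291.K.Reg2

set_option autoImplicit false
set_option linter.unusedSectionVars false

/-! The cut ideal is the intersection of the triangular ideals of all orders. -/

namespace Vale.Agent.P291.K

open MvPolynomial

variable {M A : Type} [CommRing A] [IsDomain A] [DecidableEq M]

/-- relation at `b` inside `G` -/
noncomputable def PrG (L : M → M → Multiset A) (Z : M → Multiset A) (G : Finset M) (σ : M → ℕ)
    (b : M) : MvPolynomial M A := Zw Z b * ∏ c ∈ G.filter (fun c => σ b < σ c), Dw L b c

/-- weight of a cut of `G` -/
noncomputable def cutG (L : M → M → Multiset A) (Z : M → Multiset A) (G N : Finset M) :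
    MvPolynomial M A := (∏ b ∈ N, Zw Z b) * ∏ b ∈ N, ∏ c ∈ G \ N, Dw L b c

/-- substitution `x a ↦ z` -/
noncomputable def fz (a : M) (z : A) : MvPolynomial M A →ₐ[A] MvPolynomial M A :=
  aeval fun c => if c = a then C z else X c

lemma fz_ker (a : M) (z : A) {f : MvPolynomial M A} (h : fz a z f = 0) :
    ∃ g, f = (X a - C z) * g := by
  set I : Ideal (MvPolynomial M A) := Ideal.span {X a - C z} with hI
  have e : (Ideal.Quotient.mkₐ A I).comp (fz a z) = Ideal.Quotient.mkₐ A I := by
    apply MvPolynomial.algHom_ext
    intro c
    simp only [AlgHom.comp_apply, fz, aeval_X, Ideal.Quotient.mkₐ_eq_mk]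
    by_cases hc : c = a
    · subst hc
      simp only [if_true]
      rw [Ideal.Quotient.eq, hI, Ideal.mem_span_singleton]
      exact ⟨-1, by ring⟩
    · simp only [if_neg hc]
  have h1 := DFunLike.congr_fun e f
  rw [AlgHom.comp_apply, h, map_zero] at h1
  rw [Ideal.Quotient.mkₐ_eq_mk] at h1
  have h2 : f ∈ I := Ideal.Quotient.eq_zero_iff_mem.1 h1.symm
  rw [hI, Ideal.mem_span_singleton] at h2
  obtain ⟨g, hg⟩ := h2
  exact ⟨g, hg⟩

/-- framing roots after freezing `a` at `z` -/
noncomputable def Zf (L : M → M → Multiset A) (Z : M → Multiset A) (a : M) (z : A) (b : M) :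
    Multiset A := Z b + (L b a).map fun l => z - l

lemma inter_fz_Xself (a : M) (z : A) : fz a z (X a) = (C z : MvPolynomial M A) := by
  simp [fz]

lemma inter_fz_X {a c : M} (z : A) (h : c ≠ a) : fz a z (X c) = (X c : MvPolynomial M A) := by
  simp [fz, h]

lemma inter_fz_C (a : M) (z s : A) : fz a z (C s) = (C s : MvPolynomial M A) := by
  simp [fz]

lemma inter_fz_Zw (Z : M → Multiset A) {a b : M} (z : A) (h : b ≠ a) :
    fz a z (Zw Z b) = Zw Z b := by
  unfold Zw
  rw [map_multiset_prod, Multiset.map_map]
  congr 1
  apply Multiset.map_congr rfl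
  intro l _
  simp only [Function.comp_apply, map_sub]
  rw [inter_fz_X z h, inter_fz_C]

lemma inter_fz_Dw (L : M → M → Multiset A) {a b c : M} (z : A) (h : b ≠ a) (hc : c ≠ a) :
    fz a z (Dw L b c) = Dw L b c := by
  unfold Dw
  rw [map_multiset_prod, Multiset.map_map]
  congr 1
  apply Multiset.map_congr rfl
  intro l _
  simp only [Function.comp_apply, map_sub, map_add]
  rw [inter_fz_X z h, inter_fz_X z hc, inter_fz_C]

lemma inter_fz_fz (a : M) (z : A) (f : MvPolynomial M A) : fz a z (fz a z f) = fz a z f := by
  have e : (fz a z).comp (fz a z) = (fz a z : MvPolynomial M A →ₐ[A] MvPolynomial M A) := by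
    apply MvPolynomial.algHom_ext
    intro c
    rw [AlgHom.comp_apply]
    by_cases hc : c = a
    · subst hc
      rw [inter_fz_Xself, inter_fz_C]
    · rw [inter_fz_X z hc, inter_fz_X z hc]
  exact DFunLike.congr_fun e f

lemma fz_Zw (L : M → M → Multiset A) (Z : M → Multiset A) {a b : M} (z : A) (h : b ≠ a) :
    fz a z (Zw Z b * Dw L b a) = Zw (Zf L Z a z) b := by
  rw [map_mul, inter_fz_Zw Z z h]
  unfold Zw Dw Zf
  rw [Multiset.map_add, Multiset.prod_add, map_multiset_prod, Multiset.map_map, Multiset.map_map]
  congr 2
  apply Multiset.map_congr rfl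
  intro l _
  simp only [Function.comp_apply, map_sub, map_add]
  rw [inter_fz_X z h, inter_fz_Xself, inter_fz_C]
  ring

/-- the triangularity of the relations inside `G` -/
lemma inter_tri (L : M → M → Multiset A) (Z : M → Multiset A) (G : Finset M) (σ : M → ℕ) :
    Tri σ (PrG L Z G σ) G := by
  constructor
  · intro b _
    unfold PrG
    apply mon_mul (mon_Zw Z b)
    apply mon_prod
    intro c hc
    apply mon_Dw
    rintro rfl
    exact lt_irrefl _ (Finset.mem_filter.1 hc).2
  · intro b _ c _ hbc hr
    unfold PrG
    apply free_mul (free_Zw Z hbc)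
    apply free_prod
    intro d hd
    have hd2 := (Finset.mem_filter.1 hd).2
    apply free_Dw L hbc
    rintro rfl
    exact absurd hd2 (not_lt.2 hr)

lemma inter_cut_mem (L : M → M → Multiset A) (Z : M → Multiset A) (G : Finset M) (σ : M → ℕ)
    {N : Finset M} (hN : N.Nonempty) (hNG : N ⊆ G) :
    cutG L Z G N ∈ Ideal.span (PrG L Z G σ '' G) := by
  obtain ⟨b, hb, hmax⟩ := Finset.exists_max_image N σ hN
  have h1 : PrG L Z G σ b ∈ Ideal.span (PrG L Z G σ '' G) :=
    Ideal.subset_span ⟨b, Finset.mem_coe.2 (hNG hb), rfl⟩
  have hsub : G.filter (fun c => σ b < σ c) ⊆ G \ N := by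
    intro c hc
    rw [Finset.mem_filter] at hc
    rw [Finset.mem_sdiff]
    exact ⟨hc.1, fun h => absurd hc.2 (not_lt.2 (hmax c h))⟩
  have h2 : PrG L Z G σ b ∣ cutG L Z G N := by
    unfold PrG cutG
    apply mul_dvd_mul
    · exact Finset.dvd_prod_of_mem _ hb
    · apply dvd_trans (Finset.prod_dvd_prod_of_subset _ _ _ hsub)
      exact Finset.dvd_prod_of_mem (fun b => ∏ c ∈ G \ N, Dw L b c) hb
  obtain ⟨g, hg⟩ := h2
  rw [hg, mul_comm]
  exact Ideal.mul_mem_left _ _ h1

/-- Induction on the number of marks and of framings.  If `G = ∅` then `f = 0`.  If there are no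
framings then `cutG G G = 1`.  Otherwise let `z` be a framing root at `a`.  Extend orders of
`G \ a` by putting `a` last: `fz a z` maps the relations of `G` to the relations of `G \ a` with the
framings `Zf` and the relation at `a` to `0`.  By induction `fz f = ∑ s_N fz (cut_N)`, so
`f - ∑ (fz s_N) cut_N = (x a - z) f'`; by `colon_one` `f'` is in all triangular ideals for the
framings without `z` at `a`; use the induction hypothesis. -/
theorem inter_aux (L : M → M → Multiset A) (n : ℕ) : ∀ (m : ℕ) (G : Finset M)
    (Z : M → Multiset A), G.card = n → ∑ b ∈ G, (Z b).card = m → ∀ f : MvPolynomial M A,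
    (∀ σ : M → ℕ, Set.InjOn σ (G : Set M) → f ∈ Ideal.span (PrG L Z G σ '' G)) →
    f ∈ Ideal.span {p | ∃ N : Finset M, N.Nonempty ∧ N ⊆ G ∧ p = cutG L Z G N} := by
  classical
  induction n with
  | zero =>
    intro m G Z hG _ f hf
    have hG0 : G = ∅ := Finset.card_eq_zero.1 hG
    subst hG0
    have h := hf (fun _ => 0) (by simp)
    simp only [Finset.coe_empty, Set.image_empty, Ideal.span_empty, Ideal.mem_bot] at h
    rw [h]
    exact Ideal.zero_mem _
  | succ n ihn =>
    intro m
    induction m with
    | zero =>
      intro G Z hG hZ f _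
      have hZ0 : ∀ b ∈ G, Z b = 0 := by
        intro b hb
        have := (Finset.sum_eq_zero_iff.1 hZ) b hb
        exact Multiset.card_eq_zero.1 this
      have h1 : cutG L Z G G = 1 := by
        unfold cutG
        rw [Finset.sdiff_self]
        simp only [Finset.prod_empty, Finset.prod_const_one, mul_one]
        apply Finset.prod_eq_one
        intro b hb
        unfold Zw
        rw [hZ0 b hb]
        simp
      have h2 : (1 : MvPolynomial M A) ∈
          Ideal.span {p | ∃ N : Finset M, N.Nonempty ∧ N ⊆ G ∧ p = cutG L Z G N} := by
        apply Ideal.subset_span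
        refine ⟨G, ?_, Finset.Subset.refl _, h1.symm⟩
        rw [← Finset.card_pos, hG]
        exact Nat.succ_pos n
      rw [(Ideal.eq_top_iff_one _).2 h2]
      exact Submodule.mem_top
    | succ m ihm =>
      intro G Z hG hZ f hf
      -- a framing root
      have hex : ∃ a ∈ G, Z a ≠ 0 := by
        by_contra hcon
        push Not at hcon
        have : ∑ b ∈ G, (Z b).card = 0 := by
          apply Finset.sum_eq_zero
          intro b hb
          rw [hcon b hb]
          rfl
        omega
      obtain ⟨a, haG, hZa⟩ := hex
      obtain ⟨z, hz⟩ := Multiset.exists_mem_of_ne_zero hZa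
      set G' := G.erase a with hG'
      have hG'c : G'.card = n := by
        rw [hG', Finset.card_erase_of_mem haG, hG]
        rfl
      have hGins : G = insert a G' := by
        rw [hG', Finset.insert_erase haG]
      have haG' : a ∉ G' := Finset.notMem_erase a G
      have hzeroa : fz a z (Zw Z a) = 0 := by
        unfold Zw
        rw [map_multiset_prod, Multiset.map_map, Multiset.prod_eq_zero_iff, Multiset.mem_map]
        refine ⟨z, hz, ?_⟩
        simp only [Function.comp_apply, map_sub]
        rw [inter_fz_Xself, inter_fz_C, sub_self]
      -- the frozen polynomial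
      have hfr : ∀ σ' : M → ℕ, Set.InjOn σ' (G' : Set M) →
          fz a z f ∈ Ideal.span (PrG L (Zf L Z a z) G' σ' '' G') := by
        intro σ' hσ'
        set σ : M → ℕ := fun b => if b = a then (∑ c ∈ G', σ' c) + 1 else σ' b with hσ
        have hσa : σ a = (∑ c ∈ G', σ' c) + 1 := by simp [hσ]
        have hσb : ∀ b, b ≠ a → σ b = σ' b := by
          intro b hb
          simp [hσ, hb]
        have hne : ∀ b ∈ G', b ≠ a := fun b hb h => haG' (h ▸ hb)
        have hlt : ∀ b ∈ G', σ b < σ a := by
          intro b hb
          rw [hσa, hσb b (hne b hb)]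
          exact Nat.lt_succ_of_le (Finset.single_le_sum (f := σ') (fun _ _ => Nat.zero_le _) hb)
        have hinj : Set.InjOn σ (G : Set M) := by
          intro b hb c hc hbc
          rw [hGins, Finset.coe_insert, Set.mem_insert_iff] at hb hc
          rcases hb with hb | hb
          · rcases hc with hc | hc
            · rw [hb, hc]
            · exact absurd hbc (by rw [hb]; exact (hlt c hc).ne')
          · rcases hc with hc | hc
            · exact absurd hbc (by rw [hc]; exact (hlt b hb).ne)
            · rw [hσb b (hne b hb), hσb c (hne c hc)] at hbc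
              exact hσ' hb hc hbc
        have h1 := hf σ hinj
        have h2 : fz a z f ∈ Ideal.map (fz a z) (Ideal.span (PrG L Z G σ '' G)) :=
          Ideal.mem_map_of_mem _ h1
        rw [Ideal.map_span] at h2
        refine Ideal.span_le.2 ?_ h2
        rintro _ ⟨_, ⟨b, hb, rfl⟩, rfl⟩
        rw [hGins, Finset.coe_insert, Set.mem_insert_iff] at hb
        rcases hb with hb | hb
        · subst hb
          unfold PrG
          rw [map_mul, hzeroa, zero_mul]
          exact Ideal.zero_mem _
        · have hba := hne b hb
          apply Ideal.subset_span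
          refine ⟨b, hb, ?_⟩
          unfold PrG
          have hfilt : G.filter (fun c => σ b < σ c) =
              insert a (G'.filter (fun c => σ' b < σ' c)) := by
            ext c
            simp only [Finset.mem_filter, Finset.mem_insert]
            constructor
            · rintro ⟨hc, hbc⟩
              rw [hGins, Finset.mem_insert] at hc
              rcases hc with hc | hc
              · exact Or.inl hc
              · right
                rw [hσb b hba, hσb c (hne c hc)] at hbc
                exact ⟨hc, hbc⟩
            · rintro (hc | ⟨hc, hbc⟩)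
              · rw [hc]
                exact ⟨haG, hlt b hb⟩
              · rw [hσb b hba, hσb c (hne c hc), hGins]
                exact ⟨Finset.mem_insert_of_mem hc, hbc⟩
          have hnot : a ∉ G'.filter (fun c => σ' b < σ' c) :=
            fun h => haG' (Finset.mem_filter.1 h).1
          rw [hfilt, Finset.prod_insert hnot, ← mul_assoc, map_mul]
          change _ = fz a z (Zw Z b * Dw L b a) * _
          rw [fz_Zw L Z z hba, map_prod]
          congr 1
          apply Finset.prod_congr rfl
          intro c hc
          exact (inter_fz_Dw L z hba (hne c (Finset.mem_filter.1 hc).1)).symm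
      have hIH := ihn _ G' (Zf L Z a z) hG'c rfl (fz a z f) hfr
      -- lift
      set K := Ideal.span {p | ∃ N : Finset M, N.Nonempty ∧ N ⊆ G ∧ p = cutG L Z G N} with hK
      have hlift : ∀ p : MvPolynomial M A, p ∈ Ideal.span
          {p | ∃ N : Finset M, N.Nonempty ∧ N ⊆ G' ∧ p = cutG L (Zf L Z a z) G' N} →
          ∃ g ∈ K, fz a z g = fz a z p := by
        intro p hp
        induction hp using Submodule.span_induction with
        | mem p hp =>
          obtain ⟨N, hN, hNG, rfl⟩ := hp
          refine ⟨cutG L Z G N, ?_, ?_⟩
          · apply Ideal.subset_span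
            exact ⟨N, hN, fun x hx => by rw [hGins]; exact Finset.mem_insert_of_mem (hNG hx), rfl⟩
          · have haN : a ∉ N := fun h => haG' (hNG h)
            have hsd : G \ N = insert a (G' \ N) := by
              rw [hGins, Finset.insert_sdiff_of_notMem _ haN]
            have hnot : a ∉ G' \ N := fun h => haG' (Finset.mem_sdiff.1 h).1
            have hne : ∀ b ∈ G', b ≠ a := fun b hb h => haG' (h ▸ hb)
            have e : fz a z (cutG L Z G N) = cutG L (Zf L Z a z) G' N := by
              unfold cutG
              rw [hsd]
              simp only [Finset.prod_insert hnot]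
              rw [Finset.prod_mul_distrib, ← mul_assoc, ← Finset.prod_mul_distrib, map_mul,
                map_prod, map_prod]
              congr 1
              · apply Finset.prod_congr rfl
                intro b hb
                exact fz_Zw L Z z (hne b (hNG hb))
              · apply Finset.prod_congr rfl
                intro b hb
                rw [map_prod]
                apply Finset.prod_congr rfl
                intro c hc
                exact inter_fz_Dw L z (hne b (hNG hb)) (hne c (Finset.mem_sdiff.1 hc).1)
            rw [← e, inter_fz_fz]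
        | zero => exact ⟨0, K.zero_mem, rfl⟩
        | add x y _ _ hx hy =>
          obtain ⟨gx, hgx, ex⟩ := hx
          obtain ⟨gy, hgy, ey⟩ := hy
          exact ⟨gx + gy, K.add_mem hgx hgy, by rw [map_add, map_add, ex, ey]⟩
        | smul r x _ hx =>
          obtain ⟨gx, hgx, ex⟩ := hx
          exact ⟨r * gx, K.mul_mem_left r hgx, by
            rw [smul_eq_mul, map_mul, map_mul, ex]⟩
      obtain ⟨g, hgK, hg⟩ := hlift _ hIH
      rw [inter_fz_fz] at hg
      have hker : fz a z (f - g) = 0 := by rw [map_sub, hg, sub_self]
      obtain ⟨f', hf'⟩ := fz_ker a z hker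
      -- the smaller framing
      set Z' : M → Multiset A := Function.update Z a ((Z a).erase z) with hZ'
      have hZ'a : Z' a = (Z a).erase z := by rw [hZ', Function.update_self]
      have hZ'b : ∀ b, b ≠ a → Z' b = Z b := fun b hb => by
        rw [hZ', Function.update_of_ne hb]
      have hZw : Zw Z a = (X a - C z) * Zw Z' a := by
        unfold Zw
        rw [hZ'a]
        conv_lhs => rw [← Multiset.cons_erase hz]
        rw [Multiset.map_cons, Multiset.prod_cons]
      have hZwb : ∀ b, b ≠ a → Zw Z b = Zw Z' b := by
        intro b hb
        unfold Zw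
        rw [hZ'b b hb]
      have hq1 : (X a - C z : MvPolynomial M A) = Zw (fun _ => {z}) a := by
        unfold Zw
        simp
      have hcol : ∀ σ : M → ℕ, Set.InjOn σ (G : Set M) →
          f' ∈ Ideal.span (PrG L Z' G σ '' G) := by
        intro σ hσ
        refine colon_one σ (PrG L Z G σ) (PrG L Z' G σ) G haG (X a - C z) ?_ ?_
          (inter_tri L Z G σ) ?_ ?_ ?_
        · unfold PrG
          rw [hZw, mul_assoc]
        · intro b _ hb
          unfold PrG
          rw [hZwb b hb]
        · rw [hq1]
          exact mon_Zw _ a
        · intro b _ hb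
          rw [hq1]
          apply free_Zw
          rintro rfl
          exact lt_irrefl _ hb
        · rw [← hf']
          apply Ideal.sub_mem _ (hf σ hσ)
          refine Ideal.span_le.2 ?_ hgK
          rintro _ ⟨N, hN, hNG, rfl⟩
          exact inter_cut_mem L Z G σ hN hNG
      have hsum : ∑ b ∈ G, (Z' b).card = m := by
        rw [hGins, Finset.sum_insert haG'] at hZ ⊢
        rw [hZ'a, Multiset.card_erase_of_mem hz]
        have h1 : ∑ b ∈ G', (Z' b).card = ∑ b ∈ G', (Z b).card := by
          apply Finset.sum_congr rfl
          intro b hb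
          rw [hZ'b b (fun h => haG' (h ▸ hb))]
        rw [h1]
        have h2 : 0 < (Z a).card := Multiset.card_pos.2 hZa
        have h3 : (Z a).card.pred = (Z a).card - 1 := rfl
        omega
      have hIH2 := ihm G Z' hG hsum f' hcol
      have hf2 : f = g + (X a - C z) * f' := by
        rw [← hf']
        ring
      rw [hf2]
      apply Ideal.add_mem _ hgK
      have hmul : ∀ p : MvPolynomial M A, p ∈ Ideal.span
          {p | ∃ N : Finset M, N.Nonempty ∧ N ⊆ G ∧ p = cutG L Z' G N} →
          (X a - C z) * p ∈ K := by
        intro p hp
        induction hp using Submodule.span_induction with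
        | mem p hp =>
          obtain ⟨N, hN, hNG, rfl⟩ := hp
          have hmemK : cutG L Z G N ∈ K := Ideal.subset_span ⟨N, hN, hNG, rfl⟩
          by_cases haN : a ∈ N
          · have e : (X a - C z) * cutG L Z' G N = cutG L Z G N := by
              unfold cutG
              rw [← mul_assoc]
              congr 1
              rw [← Finset.mul_prod_erase N _ haN, ← Finset.mul_prod_erase N (fun b => Zw Z b) haN,
                hZw, mul_assoc]
              congr 2
              apply Finset.prod_congr rfl
              intro b hb
              exact (hZwb b (Finset.ne_of_mem_erase hb)).symm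
            rw [e]
            exact hmemK
          · have e : cutG L Z' G N = cutG L Z G N := by
              unfold cutG
              congr 1
              apply Finset.prod_congr rfl
              intro b hb
              exact (hZwb b (fun h => haN (h ▸ hb))).symm
            rw [e]
            exact K.mul_mem_left _ hmemK
        | zero =>
          rw [mul_zero]
          exact K.zero_mem
        | add x y _ _ hx hy =>
          rw [mul_add]
          exact K.add_mem hx hy
        | smul r x _ hx =>
          rw [smul_eq_mul, mul_left_comm]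
          exact K.mul_mem_left r hx
      exact hmul f' hIH2

theorem inter [Fintype M] (L : M → M → Multiset A) (Z : M → Multiset A) {f : MvPolynomial M A}
    (h : ∀ σ : M → ℕ, Function.Injective σ → f ∈ TI L Z (up σ)) : f ∈ KI L Z := by
  have h1 := inter_aux L (Finset.univ : Finset M).card (∑ b ∈ Finset.univ, (Z b).card)
    Finset.univ Z rfl rfl f (by
      intro σ hσ
      have hinj : Function.Injective σ := by
        rw [Finset.coe_univ] at hσ
        exact Set.injOn_univ.1 hσ
      have h2 := h σ hinj
      unfold TI at h2
      have e : Set.range (Pr L Z (up σ)) = PrG L Z Finset.univ σ '' (Finset.univ : Finset M) := by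
        rw [Finset.coe_univ, Set.image_univ]
        rfl
      rw [e] at h2
      exact h2)
  unfold KI
  refine Ideal.span_le.2 ?_ h1
  rintro _ ⟨N, hN, _, rfl⟩
  apply Ideal.subset_span
  refine ⟨N, hN, ?_⟩
  unfold cutG cut
  rw [Finset.compl_eq_univ_sdiff]

end Vale.Agent.P291.K
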