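import Vale.Agent.P291.K.LinkT
import Vale.Agent.P291.K.Inter

set_option autoImplicit false
set_option linter.unusedSectionVars false

/-! The main induction. -/

namespace Vale.Agent.P291.K

open MvPolynomial

section
variable {M A I : Type} [CommRing A] [IsDomain A] [Algebra ℚ A] [DecidableEq M] [Fintype M]
  [DecidableEq I]

variable {col : M → I} {L : I → I → Multiset A} {Z : I → Multiset A} {h : A} {ε : A →+* ℂ}
  {PP : Ideal (MvPolynomial M A)} {p : M → A} {r : M → ℚ}

lemma link_map_Dw {A' : Type} [CommRing A'] (φ : A →+* A') (L : M → M → Multiset A) (b c : M) :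
    MvPolynomial.map φ (Dw L b c) = Dw (fun b c => (L b c).map φ) b c := by
  unfold Dw
  rw [map_multiset_prod, Multiset.map_map, Multiset.map_map]
  congr 1
  refine Multiset.map_congr rfl fun l _ => ?_
  simp

lemma link_map_Zw {A' : Type} [CommRing A'] (φ : A →+* A') (Z : M → Multiset A) (b : M) :
    MvPolynomial.map φ (Zw Z b) = Zw (fun b => (Z b).map φ) b := by
  unfold Zw
  rw [map_multiset_prod, Multiset.map_map, Multiset.map_map]
  congr 1
  refine Multiset.map_congr rfl fun l _ => ?_
  simp

lemma link_map_Pr {A' : Type} [CommRing A'] (φ : A →+* A') (L : M → M → Multiset A)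
    (Z : M → Multiset A) (T : M → Finset M) (b : M) :
    MvPolynomial.map φ (Pr L Z T b) =
      Pr (fun b c => (L b c).map φ) (fun b => (Z b).map φ) T b := by
  unfold Pr
  rw [map_mul, map_prod, link_map_Zw]
  congr 1
  exact Finset.prod_congr rfl fun c _ => link_map_Dw φ L b c

lemma link_map_TI {A' : Type} [CommRing A'] (φ : A →+* A') (L : M → M → Multiset A)
    (Z : M → Multiset A) (T : M → Finset M) {y : MvPolynomial M A} (hy : y ∈ TI L Z T) :
    MvPolynomial.map φ y ∈ TI (fun b c => (L b c).map φ) (fun b => (Z b).map φ) T := by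
  have h1 : Ideal.map (MvPolynomial.map φ) (TI L Z T) ≤
      TI (fun b c => (L b c).map φ) (fun b => (Z b).map φ) T := by
    unfold TI
    rw [Ideal.map_span, Ideal.span_le]
    rintro _ ⟨_, ⟨b, rfl⟩, rfl⟩
    rw [link_map_Pr]
    exact Ideal.subset_span ⟨b, rfl⟩
  exact h1 (Ideal.mem_map_of_mem _ hy)

lemma link_map_pp {A' : Type} [CommRing A'] (φ : A →+* A') (col : M → I) (s : A)
    (p : M → M → Prop) : MvPolynomial.map φ (pp col s p) = pp col (φ s) p := by
  unfold pp
  rw [map_prod]
  refine Finset.prod_congr rfl fun a _ => ?_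
  rw [map_prod]
  refine Finset.prod_congr rfl fun b _ => ?_
  split_ifs
  · simp
  · simp

/-- the specialization `φ` with `φ h = 0` -/
theorem link {A' : Type} [CommRing A'] [IsDomain A'] [Algebra ℚ A'] (φ : A →+* A')
    (hφ : φ h = 0) (hl : Lbl L Z h ε) (f : MvPolynomial M A)
    (hf : ∀ a b, col a = col b → sw a b f = f)
    (h1 : f * (pp col 0 fun _ _ => True) * (pp col h fun _ _ => True) ∈
      KI (fun b c => L (col b) (col c)) (fun b => Z (col b))) :
    MvPolynomial.map φ f * (pp col 0 fun _ _ => True) ∈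
      KI (fun b c => (L (col b) (col c)).map φ) (fun b => (Z (col b)).map φ) := by
  refine inter _ _ fun σ hσ => ?_
  have h2 := link_map_TI φ _ _ _ (link_T hl f hf h1 σ hσ)
  rw [map_mul, map_mul, link_map_pp, link_map_pp, hφ, map_zero, mul_assoc] at h2
  obtain ⟨e, he, hsq⟩ := pp_sq (A := A') col σ hσ
  rw [hsq] at h2
  have h3 := Ideal.mul_mem_left _ (e : MvPolynomial M A') h2
  have h4 : (e : MvPolynomial M A') * (MvPolynomial.map φ f *
      ((e : MvPolynomial M A') * pp col 0 fun _ _ => True)) =
      MvPolynomial.map φ f * pp col 0 fun _ _ => True := by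
    have h5 : (e : MvPolynomial M A') * (e : MvPolynomial M A') = 1 := by
      rw [← Int.cast_mul, he, Int.cast_one]
    calc (e : MvPolynomial M A') * (MvPolynomial.map φ f *
        ((e : MvPolynomial M A') * pp col 0 fun _ _ => True)) =
        ((e : MvPolynomial M A') * (e : MvPolynomial M A')) *
          (MvPolynomial.map φ f * pp col 0 fun _ _ => True) := by ring
      _ = _ := by rw [h5, one_mul]
  rw [h4] at h3
  exact h3

end

end Vale.Agent.P291.K
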