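import Vale.Agent.P291.K.GUnst
import Vale.Agent.P291.K.Link
import Vale.Agent.P291.M.MainJ

set_option autoImplicit false
set_option linter.unusedSectionVars false

/-! The kernel in the presentation of Hausel and Proudfoot. -/

namespace Vale.Agent.P291.K

open MvPolynomial Vale.Agent.P291.G Vale.Agent.P291.H Vale.Agent.P291.H.M

variable (D : QData) {K : Type} [Field K] [Algebra ℂ K] (x : B D → K) (y : Fin D.rk → K)

lemma Final_spc_z0 (f : S D (ZZ D)) : spc D x y (z0 D f) = spc D x y f := by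
  have h : (spc D x y).comp (z0 D) = spc D x y := by
    apply MvPolynomial.algHom_ext
    intro b
    rw [AlgHom.comp_apply, z0, aeval_X]
    rcases b with b | (a | (u | j))
    · simp [spc, xx]
    · simp
    · simp [spc]
    · simp
  exact DFunLike.congr_fun h f

/-- from the membership of `f · disc` for the labels of one sign -/
lemma Final_aux {L : D.I → D.I → Multiset (FR D)} {Z : D.I → Multiset (FR D)} {h : FR D}
    {ε : FR D →+* ℂ} (hl : Lbl L Z h ε) (hh0 : h0 D h = 0)
    (hL : ∀ i j, (L i j).map (h0 D) = Lq D 0 0 i j) (hZ : ∀ i, (Z i).map (h0 D) = Zq D 0 i)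
    {g : S D (ZZ D)} (hg : ∀ σ, act D (ZZ D) σ g = g)
    (hd : ∃ e : ℤ, e * e = 1 ∧ iso D (disc D) = (e : MvPolynomial (B D) (FR D)) *
      ((pp (Sigma.fst : B D → D.I) 0 fun _ _ => True) *
        pp (Sigma.fst : B D → D.I) h fun _ _ => True))
    (hm : iso D (g * disc D) ∈ KI (fun b c : B D => L b.1 c.1) fun b => Z b.1) :
    z0 D g * ddT D (ZZ D) ∈ cutI (wX D) := by
  classical
  obtain ⟨e, he, hd⟩ := hd
  have h1 : iso D g * (pp (Sigma.fst : B D → D.I) 0 fun _ _ => True) *
      (pp (Sigma.fst : B D → D.I) h fun _ _ => True) ∈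
        KI (fun b c : B D => L b.1 c.1) fun b => Z b.1 := by
    have h3 : (e : MvPolynomial (B D) (FR D)) * (e : MvPolynomial (B D) (FR D)) = 1 := by
      rw [← Int.cast_mul, he, Int.cast_one]
    have h2 := Ideal.mul_mem_left _ (e : MvPolynomial (B D) (FR D)) hm
    rw [map_mul, hd] at h2
    generalize (e : MvPolynomial (B D) (FR D)) = E at h2 h3
    have h4 : ∀ f p q : MvPolynomial (B D) (FR D), E * (f * (E * (p * q))) = f * p * q := by
      intro f p q
      linear_combination f * p * q * h3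
    rw [h4] at h2
    exact h2
  have h5 := link (col := (Sigma.fst : B D → D.I)) (h0 D) hh0 hl (iso D g)
    (fun a b hab => iso_act D hg hab) h1
  simp only [hL, hZ] at h5
  apply iso_cut
  rw [map_mul, iso_z0, iso_ddT]
  exact h5

/-- for `ν > 0` or `ν < 0` the Hausel-Proudfoot ideal is contained in the ideal of the invariants
`g` with `g · Δ` in the cut ideal -/
theorem kerH_le_kerJ (ν : D.I → ℤ) (hν : (∀ i, 0 < ν i) ∨ ∀ i, ν i < 0) :
    kerH D x y ν ⊆ kerJ D x y := by
  rintro z ⟨g, hg, hm, rfl⟩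
  have hg' : ∀ σ, act D (ZZ D) σ g = g := hg
  refine ⟨z0 D g, fun σ => ?_, ?_, Final_spc_z0 D x y g⟩
  · rw [← z0_act, hg' σ]
  rcases hν with hν | hν
  · refine Final_aux D (lbl_pos D) (h0_hh D) (h0_Lq_pos D) (h0_Zq_pos D) hg' (iso_disc_pos D) ?_
    refine Submodule.span_induction (p := fun p _ => iso D p ∈
      KI (fun b c : B D => Lq D (hh D) 0 b.1 c.1) fun b => Zq D (hh D) b.1) ?_ ?_ ?_ ?_ hm
    · rintro _ ⟨l, hl, rfl⟩
      exact unst_pos D (wt_pos D hν hl)
    · rw [map_zero]
      exact Ideal.zero_mem _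
    · intro p q _ _ h1 h2
      rw [map_add]
      exact Ideal.add_mem _ h1 h2
    · intro c p _ h1
      rw [smul_eq_mul, map_mul]
      exact Ideal.mul_mem_left _ _ h1
  · have hn : h0 D (-hh D) = 0 := by rw [map_neg, h0_hh, neg_zero]
    refine Final_aux D (lbl_neg D) hn (h0_Lq_neg D) (h0_Zq_neg D) hg' (iso_disc_neg D) ?_
    refine Submodule.span_induction (p := fun p _ => iso D p ∈
      KI (fun b c : B D => Lq D 0 (hh D) b.1 c.1) fun b => Zq D 0 b.1) ?_ ?_ ?_ ?_ hm
    · rintro _ ⟨l, hl, rfl⟩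
      exact unst_neg D (wt_neg D hν hl)
    · rw [map_zero]
      exact Ideal.zero_mem _
    · intro p q _ _ h1 h2
      rw [map_add]
      exact Ideal.add_mem _ h1 h2
    · intro c p _ h1
      rw [smul_eq_mul, map_mul]
      exact Ideal.mul_mem_left _ _ h1

end Vale.Agent.P291.K
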