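import Vale.Agent.P291.K.Final
import Vale.Agent.P291.T.BridgeE

set_option autoImplicit false
set_option linter.unusedSectionVars false

/-! Comparison of the two descriptions of the kernel, in the definitions of `T/QE.lean`. -/

namespace Vale.Agent.P291.E

open MvPolynomial

variable (D : QData) {K : Type} [Field K] [Algebra ℂ K] (x : B D → K) (y : Fin D.rk → K)
  (ν : D.I → ℤ)

lemma sub_kerH : (kerX D x y ν).2 ⊆ Vale.Agent.P291.G.kerH (tG D) x y ν := by
  rintro z hz
  rw [ker2_def] at hz
  obtain ⟨g, h1, h2, h3⟩ := hz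
  refine ⟨g, fun σ => ?_, ?_, ?_⟩
  · have := h1 σ
    rw [act_eq] at this
    exact this
  · rw [disc_eq] at h2
    exact h2
  · exact h3

/-- for `ν > 0` or `ν < 0` the second ideal is contained in the first one -/
theorem kerX_le (hν : (∀ i, 0 < ν i) ∨ ∀ i, ν i < 0) :
    (kerX D x y ν).2 ⊆ (kerX D x y ν).1 := by
  intro z hz
  rw [kerK_eq]
  exact Vale.Agent.P291.K.kerH_le_kerJ (tG D) x y ν hν (sub_kerH D x y ν hz)

end Vale.Agent.P291.E
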