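import Vale.Agent.P291.K.Pt
import Vale.Agent.P291.M.Fwd
import Vale.Agent.P291.H.QDefs

set_option autoImplicit false
set_option linter.unusedSectionVars false

/-! The labels of a quiver. -/

namespace Vale.Agent.P291.K

open MvPolynomial Vale.Agent.P291.G Vale.Agent.P291.H Vale.Agent.P291.H.M

variable (D : QData)

/-- flavor ring -/
abbrev FR : Type := MvPolynomial (ZZ D) ℂ

/-- variable of an arrow -/
noncomputable def ta (a : D.A) : FR D := X (Sum.inl (Sum.inl a))
/-- variable of a framing vector -/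
noncomputable def zk (i : D.I) (k : Fin (D.w i)) : FR D := X (Sum.inl (Sum.inr ⟨i, k⟩))
/-- `ħ` -/
noncomputable def hh : FR D := X (Sum.inr (Sum.inl ()))

/-- polynomials in the gauge variables over the flavor ring -/
noncomputable def iso : S D (ZZ D) ≃ₐ[ℂ] MvPolynomial (B D) (FR D) := sumAlgEquiv ℂ (B D) (ZZ D)

/-- labels of the pairs `b → c`, `b` of colour `i`, `c` of colour `j` -/
noncomputable def Lq (u v : FR D) (i j : D.I) : Multiset (FR D) :=
  ((Finset.univ.filter fun a => D.src a = i ∧ D.tgt a = j).val.map fun a => u - ta D a) +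
  ((Finset.univ.filter fun a => D.src a = j ∧ D.tgt a = i).val.map fun a => ta D a - v)

/-- framing roots -/
noncomputable def Zq (u : FR D) (i : D.I) : Multiset (FR D) :=
  (Finset.univ : Finset (Fin (D.w i))).val.map fun k => zk D i k - u

/-- evaluation of the flavor ring: arrows `↦ s`, framing vectors `↦ t`, `ħ ↦ e` -/
noncomputable def evq (s t e : ℂ) : FR D →+* ℂ :=
  (aeval (Sum.elim (Sum.elim (fun _ => s) fun _ => t) (Sum.elim (fun _ => e) fun _ => 0)) :
    FR D →ₐ[ℂ] ℂ)

/-- the substitution `ħ ↦ 0` in the flavor ring -/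
noncomputable def h0 : FR D →+* FR D :=
  (aeval (Sum.elim (fun z => X (Sum.inl z))
    (Sum.elim (fun _ => 0) fun j => X (Sum.inr (Sum.inr j)))) : FR D →ₐ[ℂ] FR D)

lemma GDefs_ev_ta (s t e : ℂ) (a : D.A) : evq D s t e (ta D a) = s := by
  change (aeval _ : FR D →ₐ[ℂ] ℂ) (X (Sum.inl (Sum.inl a))) = _
  rw [aeval_X]
  rfl

lemma GDefs_ev_zk (s t e : ℂ) (i : D.I) (k : Fin (D.w i)) : evq D s t e (zk D i k) = t := by
  change (aeval _ : FR D →ₐ[ℂ] ℂ) (X (Sum.inl (Sum.inr ⟨i, k⟩))) = _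
  rw [aeval_X]
  rfl

lemma GDefs_ev_hh (s t e : ℂ) : evq D s t e (hh D) = e := by
  change (aeval _ : FR D →ₐ[ℂ] ℂ) (X (Sum.inr (Sum.inl ()))) = _
  rw [aeval_X]
  rfl

lemma GDefs_mesh (u v h : FR D) (huv : h = u - v) (i j : D.I) :
    Lq D u v j i = (Lq D u v i j).map fun l => h - l := by
  unfold Lq
  rw [Multiset.map_add, Multiset.map_map, Multiset.map_map, add_comm]
  subst huv
  congr 1
  · refine Multiset.map_congr rfl fun a _ => ?_
    simp only [Function.comp_apply]
    ring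
  · refine Multiset.map_congr rfl fun a _ => ?_
    simp only [Function.comp_apply]
    ring

lemma GDefs_eL (u v : FR D) (s t e : ℂ) (h1 : evq D s t e u = s + 1)
    (h2 : evq D s t e v = s - 1) (i j : D.I) : ∀ l ∈ Lq D u v i j, evq D s t e l = 1 := by
  intro l hl
  unfold Lq at hl
  rw [Multiset.mem_add, Multiset.mem_map, Multiset.mem_map] at hl
  rcases hl with ⟨a, -, rfl⟩ | ⟨a, -, rfl⟩
  · rw [map_sub, h1, GDefs_ev_ta]
    ring
  · rw [map_sub, h2, GDefs_ev_ta]
    ring

lemma lbl_pos : Lbl (Lq D (hh D) 0) (Zq D (hh D)) (hh D) (evq D 1 2 2) where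
  mesh := GDefs_mesh D _ _ _ (by rw [sub_zero])
  eL := GDefs_eL D _ _ _ _ _ (by rw [GDefs_ev_hh]; norm_num) (by rw [map_zero]; norm_num)
  eZ i z hz := by
    unfold Zq at hz
    rw [Multiset.mem_map] at hz
    obtain ⟨k, -, rfl⟩ := hz
    rw [map_sub, GDefs_ev_hh, GDefs_ev_zk, sub_self]
  eh := GDefs_ev_hh D _ _ _

lemma lbl_neg : Lbl (Lq D 0 (hh D)) (Zq D 0) (-hh D) (evq D (-1) 0 (-2)) where
  mesh := GDefs_mesh D _ _ _ (by rw [zero_sub])
  eL := GDefs_eL D _ _ _ _ _ (by rw [map_zero]; norm_num) (by rw [GDefs_ev_hh]; norm_num)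
  eZ i z hz := by
    unfold Zq at hz
    rw [Multiset.mem_map] at hz
    obtain ⟨k, -, rfl⟩ := hz
    rw [map_sub, map_zero, GDefs_ev_zk, sub_self]
  eh := by rw [map_neg, GDefs_ev_hh, neg_neg]

lemma GDefs_h0_ta (a : D.A) : h0 D (ta D a) = ta D a := by
  change (aeval _ : FR D →ₐ[ℂ] FR D) (X (Sum.inl (Sum.inl a))) = _
  rw [aeval_X]
  rfl

lemma GDefs_h0_zk (i : D.I) (k : Fin (D.w i)) : h0 D (zk D i k) = zk D i k := by
  change (aeval _ : FR D →ₐ[ℂ] FR D) (X (Sum.inl (Sum.inr ⟨i, k⟩))) = _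
  rw [aeval_X]
  rfl

lemma h0_hh : h0 D (hh D) = 0 := by
  change (aeval _ : FR D →ₐ[ℂ] FR D) (X (Sum.inr (Sum.inl ()))) = _
  rw [aeval_X]
  rfl

lemma GDefs_h0_Lq (u v : FR D) (i j : D.I) :
    (Lq D u v i j).map (h0 D) = Lq D (h0 D u) (h0 D v) i j := by
  unfold Lq
  rw [Multiset.map_add, Multiset.map_map, Multiset.map_map]
  congr 1
  · refine Multiset.map_congr rfl fun a _ => ?_
    rw [Function.comp_apply, map_sub, GDefs_h0_ta]
  · refine Multiset.map_congr rfl fun a _ => ?_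
    rw [Function.comp_apply, map_sub, GDefs_h0_ta]

lemma GDefs_h0_Zq (u : FR D) (i : D.I) : (Zq D u i).map (h0 D) = Zq D (h0 D u) i := by
  unfold Zq
  rw [Multiset.map_map]
  refine Multiset.map_congr rfl fun k _ => ?_
  rw [Function.comp_apply, map_sub, GDefs_h0_zk]

/-- both systems of labels specialize to the same one -/
lemma h0_Lq_pos (i j : D.I) : (Lq D (hh D) 0 i j).map (h0 D) = Lq D 0 0 i j := by
  rw [GDefs_h0_Lq, h0_hh, map_zero]

lemma h0_Lq_neg (i j : D.I) : (Lq D 0 (hh D) i j).map (h0 D) = Lq D 0 0 i j := by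
  rw [GDefs_h0_Lq, h0_hh, map_zero]

lemma h0_Zq_pos (i : D.I) : (Zq D (hh D) i).map (h0 D) = Zq D 0 i := by
  rw [GDefs_h0_Zq, h0_hh]

lemma h0_Zq_neg (i : D.I) : (Zq D 0 i).map (h0 D) = Zq D 0 i := by
  rw [GDefs_h0_Zq, map_zero]

lemma GDefs_x (b : B D) : iso D (X (Sum.inl b)) = X b := sumAlgEquiv_X_inl _ _ _ b

lemma GDefs_z (z : ZZ D) : iso D (X (Sum.inr z)) = C (X z) := sumAlgEquiv_X_inr _ _ _ z

lemma GDefs_C (r : ℂ) : iso D (C r) = C (C r) := sumAlgEquiv_C_inl _ _ _ r

lemma iso_z0 (g : S D (ZZ D)) : iso D (z0 D g) = MvPolynomial.map (h0 D) (iso D g) := by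
  have h : (iso D).toRingEquiv.toRingHom.comp (z0 D).toRingHom =
      (MvPolynomial.map (h0 D)).comp (iso D).toRingEquiv.toRingHom := by
    apply MvPolynomial.ringHom_ext
    · intro r
      change iso D (z0 D (C r)) = MvPolynomial.map (h0 D) (iso D (C r))
      rw [z0, aeval_C, GDefs_C, map_C, h0]
      change iso D (C r) = C ((aeval _ : FR D →ₐ[ℂ] FR D) (C r))
      rw [aeval_C, GDefs_C]
      rfl
    · intro x
      change iso D (z0 D (X x)) = MvPolynomial.map (h0 D) (iso D (X x))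
      rcases x with b | z
      · rw [z0, aeval_X, GDefs_x, map_X]
        exact GDefs_x D b
      · rw [GDefs_z, map_C, z0, aeval_X]
        change _ = C ((aeval _ : FR D →ₐ[ℂ] FR D) (X z))
        rw [aeval_X]
        rcases z with z | (z | j)
        · exact GDefs_z D (Sum.inl z)
        · change iso D 0 = C 0
          rw [map_zero, map_zero]
        · exact GDefs_z D (Sum.inr (Sum.inr j))
  exact RingHom.congr_fun h g

lemma GDefs_rename (π : B D → B D) (g : S D (ZZ D)) :
    iso D (rename (Sum.map π id) g) = rename π (iso D g) := by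
  have h : (iso D).toRingEquiv.toRingHom.comp
      (rename (Sum.map π id) : S D (ZZ D) →ₐ[ℂ] S D (ZZ D)).toRingHom =
      (rename π : MvPolynomial (B D) (FR D) →ₐ[FR D] MvPolynomial (B D) (FR D)).toRingHom.comp
        (iso D).toRingEquiv.toRingHom := by
    apply MvPolynomial.ringHom_ext
    · intro r
      change iso D (rename (Sum.map π id) (C r)) = rename π (iso D (C r))
      rw [rename_C, GDefs_C, rename_C]
    · intro x
      change iso D (rename (Sum.map π id) (X x)) = rename π (iso D (X x))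
      rcases x with b | z
      · rw [rename_X, GDefs_x, rename_X]
        exact GDefs_x D (π b)
      · rw [rename_X, GDefs_z, rename_C]
        exact GDefs_z D z
  exact RingHom.congr_fun h g

lemma GDefs_perm {a b : B D} (hab : a.1 = b.1) :
    ∃ σ : W D, (perm D σ : B D → B D) = Equiv.swap a b := by
  obtain ⟨i, r⟩ := a
  obtain ⟨j, s⟩ := b
  change i = j at hab
  subst hab
  refine ⟨Function.update (1 : W D) i (Equiv.swap r s), ?_⟩
  funext ⟨k, t⟩
  change (⟨k, Function.update (1 : W D) i (Equiv.swap r s) k t⟩ : B D) = _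
  by_cases hk : k = i
  · subst hk
    rw [Function.update_self]
    by_cases h1 : t = r
    · subst h1
      rw [Equiv.swap_apply_left, Equiv.swap_apply_left]
    · by_cases h2 : t = s
      · subst h2
        rw [Equiv.swap_apply_right, Equiv.swap_apply_right]
      · rw [Equiv.swap_apply_of_ne_of_ne h1 h2, Equiv.swap_apply_of_ne_of_ne]
        · intro h3
          exact h1 (eq_of_heq (Sigma.mk.inj h3).2)
        · intro h3
          exact h2 (eq_of_heq (Sigma.mk.inj h3).2)
  · rw [Function.update_of_ne hk, Equiv.swap_apply_of_ne_of_ne]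
    · rfl
    · intro h3
      exact hk (Sigma.mk.inj h3).1
    · intro h3
      exact hk (Sigma.mk.inj h3).1

lemma iso_act {g : S D (ZZ D)} (hg : ∀ σ, act D (ZZ D) σ g = g) {a b : B D} (hab : a.1 = b.1) :
    sw a b (iso D g) = iso D g := by
  obtain ⟨σ, hσ⟩ := GDefs_perm D hab
  have h1 := hg σ
  rw [act, hσ] at h1
  rw [sw, ← GDefs_rename, h1]

/-- the product over the ordered pairs -/
lemma iso_ddT : iso D (ddT D (ZZ D)) = pp (Sigma.fst : B D → D.I) 0 fun _ _ => True := by
  unfold ddT dd pp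
  rw [map_prod]
  refine Finset.prod_congr rfl fun a _ => ?_
  rw [map_prod]
  refine Finset.prod_congr rfl fun b _ => ?_
  split_ifs with h
  · rw [map_sub, C_0, add_zero]
    exact congrArg₂ (· - ·) (GDefs_x D a) (GDefs_x D b)
  · rw [map_one]

lemma GDefs_prod {R : Type} [CommRing R] (f : B D → B D → R)
    (hd : ∀ a b : B D, Decidable (a ≠ b ∧ a.1 = b.1 ∧ True)) :
    (∏ i, ∏ r : Fin (D.v i), ∏ s ∈ Finset.univ.erase r, f ⟨i, r⟩ ⟨i, s⟩) =
      ∏ a : B D, ∏ b : B D, if a ≠ b ∧ a.1 = b.1 ∧ True then f a b else 1 := by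
  rw [Fintype.prod_sigma]
  refine Finset.prod_congr rfl fun i _ => Finset.prod_congr rfl fun r _ => ?_
  rw [Fintype.prod_sigma, Finset.prod_eq_single i]
  · rw [← Finset.filter_ne', Finset.prod_filter]
    refine Finset.prod_congr rfl fun s _ => ?_
    by_cases h : s = r
    · subst h
      rw [if_neg fun h1 => h1 rfl, if_neg fun h1 => h1.1 rfl]
    · rw [if_pos h, if_pos ⟨fun h1 => h (eq_of_heq (Sigma.mk.inj h1).2).symm, rfl, trivial⟩]
  · intro j _ hj
    refine Finset.prod_eq_one fun s _ => ?_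
    rw [if_neg fun h1 => hj h1.2.1.symm]
  · intro h
    exact absurd (Finset.mem_univ i) h

lemma iso_disc : iso D (disc D) = (pp (Sigma.fst : B D → D.I) 0 fun _ _ => True) *
      pp (Sigma.fst : B D → D.I) (hh D) fun _ _ => True := by
  classical
  unfold disc
  rw [GDefs_prod D (fun a b => (gx D a - gx D b) * (gx D a - gx D b + gh D))
    fun _ _ => Classical.dec _]
  unfold pp
  rw [map_prod, ← Finset.prod_mul_distrib]
  refine Finset.prod_congr rfl fun a _ => ?_
  rw [map_prod, ← Finset.prod_mul_distrib]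
  refine Finset.prod_congr rfl fun b _ => ?_
  have h1 : iso D (gx D a) = X a := GDefs_x D a
  have h2 : iso D (gx D b) = X b := GDefs_x D b
  have h3 : iso D (gh D) = C (hh D) := GDefs_z D _
  by_cases h : a ≠ b ∧ a.1 = b.1 ∧ True
  · rw [if_pos h, if_pos h, if_pos h, map_mul, map_add, map_sub, h1, h2, h3, C_0, add_zero]
  · rw [if_neg h, if_neg h, if_neg h, map_one, one_mul]

lemma iso_disc_pos : ∃ e : ℤ, e * e = 1 ∧ iso D (disc D) = (e : MvPolynomial (B D) (FR D)) *
    ((pp (Sigma.fst : B D → D.I) 0 fun _ _ => True) *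
      pp (Sigma.fst : B D → D.I) (hh D) fun _ _ => True) :=
  ⟨1, one_mul 1, by rw [iso_disc, Int.cast_one, one_mul]⟩

/-- exchange of the two marks -/
lemma GDefs_neg {M A I : Type} [CommRing A] [Fintype M] [DecidableEq M] (col : M → I) (s : A) :
    ∃ e : ℤ, e * e = 1 ∧ pp col s (fun _ _ => True) =
      (e : MvPolynomial M A) * pp col (-s) fun _ _ => True := by
  classical
  refine ⟨∏ a, ∏ b, if a ≠ b ∧ col a = col b ∧ True then -1 else 1, ?_, ?_⟩
  · rw [← Finset.prod_mul_distrib]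
    refine Finset.prod_eq_one fun a _ => ?_
    rw [← Finset.prod_mul_distrib]
    refine Finset.prod_eq_one fun b _ => ?_
    split_ifs <;> norm_num
  · unfold pp
    rw [Finset.prod_comm]
    push_cast
    rw [← Finset.prod_mul_distrib]
    refine Finset.prod_congr rfl fun a _ => ?_
    rw [← Finset.prod_mul_distrib]
    refine Finset.prod_congr rfl fun b _ => ?_
    by_cases h : a ≠ b ∧ col a = col b ∧ True
    · rw [if_pos h, if_pos h, if_pos ⟨h.1.symm, h.2.1.symm, h.2.2⟩, C_neg]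
      ring
    · rw [if_neg h, if_neg h, if_neg fun h1 => h ⟨h1.1.symm, h1.2.1.symm, h1.2.2⟩, one_mul]

lemma iso_disc_neg : ∃ e : ℤ, e * e = 1 ∧ iso D (disc D) = (e : MvPolynomial (B D) (FR D)) *
    ((pp (Sigma.fst : B D → D.I) 0 fun _ _ => True) *
      pp (Sigma.fst : B D → D.I) (-hh D) fun _ _ => True) := by
  obtain ⟨e, he, h⟩ := GDefs_neg (Sigma.fst : B D → D.I) (hh D)
  refine ⟨e, he, ?_⟩
  rw [iso_disc, h]
  ring

end Vale.Agent.P291.K
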