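import Vale.Agent.P291.K.GDefs

set_option autoImplicit false
set_option linter.unusedSectionVars false

/-! Unstable cocharacters and cuts. -/

namespace Vale.Agent.P291.K

open MvPolynomial Vale.Agent.P291.G Vale.Agent.P291.H Vale.Agent.P291.H.M

variable (D : QData)

lemma GUnst_iso_gx (b : B D) : iso D (gx D b) = X b := by
  rw [iso, gx]
  exact sumAlgEquiv_X_inl ℂ (B D) (ZZ D) b

lemma GUnst_iso_C (z : ZZ D) : iso D (X (Sum.inr z)) = C (X z) := by
  rw [iso]
  exact sumAlgEquiv_X_inr ℂ (B D) (ZZ D) z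

lemma GUnst_iso_ga (a : D.A) : iso D (ga D a) = C (ta D a) := GUnst_iso_C D _

lemma GUnst_iso_gw (i : D.I) (k : Fin (D.w i)) : iso D (gw D i k) = C (zk D i k) :=
  GUnst_iso_C D _

lemma GUnst_iso_gh : iso D (gh D) = C (hh D) := GUnst_iso_C D _

/-- reorganize a product over arrows and pairs of basis vectors -/
lemma GUnst_pairs {R : Type} [CommMonoid R] (G : D.A → B D → B D → R) :
    ∏ a, ∏ r, ∏ s, G a ⟨D.src a, r⟩ ⟨D.tgt a, s⟩ =
      ∏ p : B D, ∏ q : B D, ∏ a with D.src a = p.1 ∧ D.tgt a = q.1, G a p q := by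
  have h1 : ∀ p q : B D, ∏ a with D.src a = p.1 ∧ D.tgt a = q.1, G a p q =
      ∏ a, if D.src a = p.1 ∧ D.tgt a = q.1 then G a p q else 1 := fun p q =>
    Finset.prod_filter _ _
  have h2 : ∀ p : B D, ∏ q : B D, ∏ a with D.src a = p.1 ∧ D.tgt a = q.1, G a p q =
      ∏ a, ∏ q : B D, if D.src a = p.1 ∧ D.tgt a = q.1 then G a p q else 1 := by
    intro p
    rw [Finset.prod_comm]
    exact Finset.prod_congr rfl fun q _ => h1 p q
  rw [Finset.prod_congr rfl fun p _ => h2 p, Finset.prod_comm]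
  refine Finset.prod_congr rfl fun a _ => ?_
  rw [Fintype.prod_sigma, Finset.prod_eq_single (D.src a)]
  · refine Finset.prod_congr rfl fun r _ => ?_
    rw [Fintype.prod_sigma, Finset.prod_eq_single (D.tgt a)]
    · refine Finset.prod_congr rfl fun s _ => ?_
      rw [if_pos ⟨rfl, rfl⟩]
    · intro j _ hj
      refine Finset.prod_eq_one fun s _ => ?_
      rw [if_neg]
      rintro ⟨-, h⟩
      exact hj h.symm
    · intro h
      exact absurd (Finset.mem_univ _) h
  · intro i _ hi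
    refine Finset.prod_eq_one fun r _ => Finset.prod_eq_one fun q _ => ?_
    rw [if_neg]
    rintro ⟨h, -⟩
    exact hi h.symm
  · intro h
    exact absurd (Finset.mem_univ _) h

/-- factor of the pair `p → q` of the class of the unstable locus -/
noncomputable def GUnst_F (l : B D → ℤ) (p q : B D) : Pmax D :=
  ∏ a with D.src a = p.1 ∧ D.tgt a = q.1, fac D (gx D q - gx D p + ga D a) (l q - l p)

/-- framing factor of the class of the unstable locus -/
noncomputable def GUnst_G (l : B D → ℤ) (b : B D) : Pmax D :=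
  ∏ k : Fin (D.w b.1), fac D (gw D b.1 k - gx D b) (-l b)

lemma GUnst_unst (l : B D → ℤ) :
    unst D l = (∏ p : B D, ∏ q : B D, GUnst_F D l p q) * ∏ b : B D, GUnst_G D l b := by
  rw [unst]
  congr 1
  · exact GUnst_pairs D fun a p q => fac D (gx D q - gx D p + ga D a) (l q - l p)
  · rw [Fintype.prod_sigma]
    rfl

/-- the factors of a cut divide the full product -/
lemma GUnst_cut_dvd {R : Type} [CommMonoid R] (F : B D → B D → R) (N : Finset (B D)) :
    ∏ b ∈ N, ∏ c ∈ Nᶜ, F b c * F c b ∣ ∏ p : B D, ∏ q : B D, F p q := by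
  classical
  have h1 : ∏ b ∈ N, ∏ c ∈ Nᶜ, F b c * F c b =
      (∏ b ∈ N, ∏ c ∈ Nᶜ, F b c) * ∏ b ∈ Nᶜ, ∏ c ∈ N, F b c := by
    rw [Finset.prod_comm (s := Nᶜ), ← Finset.prod_mul_distrib]
    exact Finset.prod_congr rfl fun b _ => Finset.prod_mul_distrib
  rw [h1, ← Finset.prod_mul_prod_compl N fun p : B D => ∏ q : B D, F p q]
  refine mul_dvd_mul ?_ ?_
  · refine Finset.prod_dvd_prod_of_dvd _ _ fun b _ => ?_
    exact Finset.prod_dvd_prod_of_subset _ _ _ (Finset.subset_univ _)
  · refine Finset.prod_dvd_prod_of_dvd _ _ fun b _ => ?_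
    exact Finset.prod_dvd_prod_of_subset _ _ _ (Finset.subset_univ _)

lemma GUnst_Dw (u v : FR D) (b c : B D) :
    Dw (fun b c : B D => Lq D u v b.1 c.1) b c =
      (∏ a with D.src a = b.1 ∧ D.tgt a = c.1, (X b - X c + C (u - ta D a))) *
        ∏ a with D.src a = c.1 ∧ D.tgt a = b.1, (X b - X c + C (ta D a - v)) := by
  rw [Dw, Lq, Multiset.map_add, Multiset.prod_add, Multiset.map_map, Multiset.map_map]
  rfl

lemma GUnst_Zw (u : FR D) (b : B D) :
    Zw (fun b : B D => Zq D u b.1) b = ∏ k : Fin (D.w b.1), (X b - C (zk D b.1 k - u)) := by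
  rw [Zw, Zq, Multiset.map_map]
  rfl

/-- the cut divides -/
lemma GUnst_main (u v : FR D) (l : B D → ℤ) (N : Finset (B D)) (hN : N.Nonempty)
    (h1 : ∀ b ∈ N, ∀ c ∈ Nᶜ, ∀ a : D.A, X b - X c + C (u - ta D a) ∣
      iso D (fac D (gx D c - gx D b + ga D a) (l c - l b)))
    (h2 : ∀ b ∈ N, ∀ c ∈ Nᶜ, ∀ a : D.A, X b - X c + C (ta D a - v) ∣
      iso D (fac D (gx D b - gx D c + ga D a) (l b - l c)))
    (w' : FR D) (h3 : ∀ b ∈ N, ∀ k : Fin (D.w b.1), X b - C (zk D b.1 k - w') ∣
      iso D (fac D (gw D b.1 k - gx D b) (-l b))) :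
    iso D (unst D l) ∈ KI (fun b c : B D => Lq D u v b.1 c.1) fun b => Zq D w' b.1 := by
  classical
  have h4 : cut (fun b c : B D => Lq D u v b.1 c.1) (fun b => Zq D w' b.1) N ∣
      iso D (unst D l) := by
    rw [cut, GUnst_unst, map_mul, mul_comm]
    refine mul_dvd_mul ?_ ?_
    · have h5 : iso D (∏ p : B D, ∏ q : B D, GUnst_F D l p q) =
          ∏ p : B D, ∏ q : B D, iso D (GUnst_F D l p q) := by
        rw [map_prod]
        exact Finset.prod_congr rfl fun p _ => map_prod _ _ _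
      rw [h5]
      refine dvd_trans ?_ (GUnst_cut_dvd D (fun p q => iso D (GUnst_F D l p q)) N)
      refine Finset.prod_dvd_prod_of_dvd _ _ fun b hb' => ?_
      refine Finset.prod_dvd_prod_of_dvd _ _ fun c hc' => ?_
      rw [GUnst_Dw]
      refine mul_dvd_mul ?_ ?_
      · rw [GUnst_F, map_prod]
        exact Finset.prod_dvd_prod_of_dvd _ _ fun a _ => h1 b hb' c hc' a
      · rw [GUnst_F, map_prod]
        exact Finset.prod_dvd_prod_of_dvd _ _ fun a _ => h2 b hb' c hc' a
    · rw [map_prod]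
      refine dvd_trans ?_ (Finset.prod_dvd_prod_of_subset _ _ _ (Finset.subset_univ N))
      refine Finset.prod_dvd_prod_of_dvd _ _ fun b hb' => ?_
      rw [GUnst_Zw, GUnst_G, map_prod]
      exact Finset.prod_dvd_prod_of_dvd _ _ fun k _ => h3 b hb' k
  obtain ⟨r, hr⟩ := h4
  rw [hr]
  exact Ideal.mul_mem_right _ _ (Ideal.subset_span ⟨N, hN, rfl⟩)

/-- let `N` be the set where `l` is minimal (the minimum is negative): the cut of `N` divides the
class of `l` -/
lemma unst_pos {l : B D → ℤ} (hl : ∃ b, l b < 0) :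
    iso D (unst D l) ∈ KI (fun b c : B D => Lq D (hh D) 0 b.1 c.1) fun b => Zq D (hh D) b.1 := by
  classical
  obtain ⟨b₀, hb₀⟩ := hl
  obtain ⟨m, -, hm⟩ := Finset.exists_min_image Finset.univ l ⟨b₀, Finset.mem_univ _⟩
  have hm0 : l m < 0 := lt_of_le_of_lt (hm b₀ (Finset.mem_univ _)) hb₀
  refine GUnst_main D (hh D) 0 l (Finset.univ.filter fun b => l b = l m)
    ⟨m, Finset.mem_filter.2 ⟨Finset.mem_univ _, rfl⟩⟩ ?_ ?_ (hh D) ?_
  · intro b hb' c hc' a
    have h1 : l b = l m := (Finset.mem_filter.1 hb').2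
    have h2 : l m < l c := lt_of_le_of_ne (hm c (Finset.mem_univ _)) fun h =>
      Finset.mem_compl.1 hc' (Finset.mem_filter.2 ⟨Finset.mem_univ _, h.symm⟩)
    rw [fac, if_neg (by omega), if_pos (by omega)]
    simp only [map_sub, map_add, GUnst_iso_gx, GUnst_iso_ga, GUnst_iso_gh]
    refine dvd_of_eq ?_
    ring
  · intro b hb' c hc' a
    have h1 : l b = l m := (Finset.mem_filter.1 hb').2
    have h2 : l m < l c := lt_of_le_of_ne (hm c (Finset.mem_univ _)) fun h =>
      Finset.mem_compl.1 hc' (Finset.mem_filter.2 ⟨Finset.mem_univ _, h.symm⟩)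
    rw [fac, if_pos (by omega)]
    simp only [map_sub, map_add, GUnst_iso_gx, GUnst_iso_ga, map_zero]
    refine dvd_of_eq ?_
    ring
  · intro b hb' k
    have h1 : l b = l m := (Finset.mem_filter.1 hb').2
    rw [fac, if_neg (by omega), if_pos (by omega)]
    simp only [map_sub, GUnst_iso_gx, GUnst_iso_gw, GUnst_iso_gh]
    refine dvd_of_eq ?_
    ring

/-- let `N` be the set where `l` is maximal (the maximum is positive): the cut of `N` divides the
class of `l` -/
lemma unst_neg {l : B D → ℤ} (hl : ∃ b, 0 < l b) :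
    iso D (unst D l) ∈ KI (fun b c : B D => Lq D 0 (hh D) b.1 c.1) fun b => Zq D 0 b.1 := by
  classical
  obtain ⟨b₀, hb₀⟩ := hl
  obtain ⟨m, -, hm⟩ := Finset.exists_max_image Finset.univ l ⟨b₀, Finset.mem_univ _⟩
  have hm0 : 0 < l m := lt_of_lt_of_le hb₀ (hm b₀ (Finset.mem_univ _))
  refine GUnst_main D 0 (hh D) l (Finset.univ.filter fun b => l b = l m)
    ⟨m, Finset.mem_filter.2 ⟨Finset.mem_univ _, rfl⟩⟩ ?_ ?_ 0 ?_
  · intro b hb' c hc' a
    have h1 : l b = l m := (Finset.mem_filter.1 hb').2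
    have h2 : l c < l m := lt_of_le_of_ne (hm c (Finset.mem_univ _)) fun h =>
      Finset.mem_compl.1 hc' (Finset.mem_filter.2 ⟨Finset.mem_univ _, h⟩)
    rw [fac, if_pos (by omega)]
    simp only [map_sub, map_add, GUnst_iso_gx, GUnst_iso_ga, map_zero]
    refine ⟨-1, ?_⟩
    ring
  · intro b hb' c hc' a
    have h1 : l b = l m := (Finset.mem_filter.1 hb').2
    have h2 : l c < l m := lt_of_le_of_ne (hm c (Finset.mem_univ _)) fun h =>
      Finset.mem_compl.1 hc' (Finset.mem_filter.2 ⟨Finset.mem_univ _, h⟩)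
    rw [fac, if_neg (by omega), if_pos (by omega)]
    simp only [map_sub, map_add, GUnst_iso_gx, GUnst_iso_ga, GUnst_iso_gh]
    refine ⟨-1, ?_⟩
    ring
  · intro b hb' k
    have h1 : l b = l m := (Finset.mem_filter.1 hb').2
    rw [fac, if_pos (by omega)]
    simp only [map_sub, GUnst_iso_gx, GUnst_iso_gw, map_zero]
    refine ⟨-1, ?_⟩
    ring

lemma wt_pos {ν : D.I → ℤ} (hν : ∀ i, 0 < ν i) {l : B D → ℤ} (hl : wt D ν l < 0) :
    ∃ b, l b < 0 := by
  by_contra h
  push Not at h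
  refine absurd hl (not_lt.2 ?_)
  exact Finset.sum_nonneg fun b _ => mul_nonneg (hν b.1).le (h b)

lemma wt_neg {ν : D.I → ℤ} (hν : ∀ i, ν i < 0) {l : B D → ℤ} (hl : wt D ν l < 0) :
    ∃ b, 0 < l b := by
  by_contra h
  push Not at h
  refine absurd hl (not_lt.2 ?_)
  exact Finset.sum_nonneg fun b _ => mul_nonneg_of_nonpos_of_nonpos (hν b.1).le (h b)

/-- the cut ideal without `ħ` -/
lemma iso_cut {g : S D (ZZ D)} (hg : iso D g ∈
    KI (fun b c : B D => Lq D 0 0 b.1 c.1) fun b => Zq D 0 b.1) : g ∈ cutI (wX D) := by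
  classical
  have hx : ∀ b : B D, iso D (xq D b) = X b := GUnst_iso_gx D
  have ht : ∀ a : D.A, iso D (tv D a) = C (ta D a) := GUnst_iso_ga D
  have hz : ∀ (i : D.I) (k : Fin (D.w i)), iso D (zv D i k) = C (zk D i k) := GUnst_iso_gw D
  have h1 : KI (fun b c : B D => Lq D 0 0 b.1 c.1) (fun b => Zq D 0 b.1) ≤
      (cutI (wX D)).comap (iso D).symm := by
    refine Ideal.span_le.2 ?_
    rintro _ ⟨N, hN, rfl⟩
    change (iso D).symm _ ∈ cutI (wX D)
    have h2 : iso D (e (wX D) N * e (wX D) Nᶜ * zs (wX D) N) ∣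
        cut (fun b c : B D => Lq D 0 0 b.1 c.1) (fun b => Zq D 0 b.1) N := by
      have h3 : e (wX D) N * e (wX D) Nᶜ = ∏ b ∈ N, ∏ c ∈ Nᶜ, (hq D b c 0 * hq D c b 0) := by
        have h4 : e (wX D) Nᶜ = ∏ b ∈ N, ∏ c ∈ Nᶜ, hq D c b 0 := by
          rw [e, compl_compl, Finset.prod_comm]
          rfl
        rw [h4, e, ← Finset.prod_mul_distrib]
        exact Finset.prod_congr rfl fun b _ => Finset.prod_mul_distrib.symm
      rw [cut, h3, map_mul, mul_comm]
      refine mul_dvd_mul ?_ ?_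
      · rw [zs, map_prod]
        refine Finset.prod_dvd_prod_of_dvd _ _ fun b _ => ?_
        rw [GUnst_Zw]
        change iso D (zq D b 0) ∣ _
        rw [zq, map_prod]
        refine Finset.prod_dvd_prod_of_dvd _ _ fun k _ => ?_
        rw [map_add, map_sub, hx, hz, map_zero, sub_zero]
        refine ⟨-1, ?_⟩
        ring
      · rw [map_prod]
        refine Finset.prod_dvd_prod_of_dvd _ _ fun b _ => ?_
        rw [map_prod]
        refine Finset.prod_dvd_prod_of_dvd _ _ fun c _ => ?_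
        rw [GUnst_Dw, map_mul]
        refine mul_dvd_mul ?_ ?_
        · rw [hq, map_prod]
          refine Finset.prod_dvd_prod_of_dvd _ _ fun a _ => ?_
          rw [map_add, map_add, map_sub, hx, hx, ht, map_zero, map_sub, map_zero]
          refine ⟨-1, ?_⟩
          ring
        · rw [hq, map_prod]
          refine Finset.prod_dvd_prod_of_dvd _ _ fun a _ => ?_
          rw [map_add, map_add, map_sub, hx, hx, ht, map_zero, map_sub, map_zero]
          refine ⟨1, ?_⟩
          ring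
    obtain ⟨r, hr⟩ := h2
    rw [hr, map_mul, AlgEquiv.symm_apply_apply]
    exact Ideal.mul_mem_right _ _ (Ideal.subset_span ⟨N, hN, rfl⟩)
  have h5 := h1 hg
  rw [Ideal.mem_comap] at h5
  have h6 : (iso D).symm (iso D g) = g := AlgEquiv.symm_apply_apply _ _
  rw [← h6]
  exact h5

end Vale.Agent.P291.K
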