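import Vale.Agent.P291.K.CDefs

set_option autoImplicit false
set_option linter.unusedSectionVars false

/-! The main induction. -/

namespace Vale.Agent.P291.K

open MvPolynomial

section
variable {M A I : Type} [CommRing A] [IsDomain A] [Algebra ℚ A] [DecidableEq M] [Fintype M]
  [DecidableEq I]
  (col : M → I) (L : I → I → Multiset A) (Z : I → Multiset A) (h : A)

/-- labels: `ε` separates them from `h` -/
structure Lbl (ε : A →+* ℂ) : Prop where
  mesh : ∀ i j, L j i = (L i j).map fun l => h - l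
  eL : ∀ i j, ∀ l ∈ L i j, ε l = 1
  eZ : ∀ i, ∀ z ∈ Z i, ε z = 0
  eh : ε h = 2

/-- a point: a prime ideal without constants which contains `x b - p b` -/
structure Pt (ε : A →+* ℂ) (PP : Ideal (MvPolynomial M A)) (p : M → A) (r : M → ℚ) : Prop where
  pr : PP.IsPrime
  cn : ∀ a : A, C a ∈ PP → a = 0
  mem : ∀ b, X b - C (p b) ∈ PP
  rr : ∀ b, ε (p b) = (r b : ℂ)
  r0 : ∀ b, r b ≤ 0

variable {col L Z h} {ε : A →+* ℂ} {PP : Ideal (MvPolynomial M A)} {p : M → A} {r : M → ℚ}

/-- a difference in the prime ideal -/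
lemma Pt.sub (hP : Pt ε PP p r) {b c : M} {l : A} (h1 : X b - X c + C l ∈ PP) :
    p c = p b + l := by
  have h2 : C (p b - p c + l) ∈ PP := by
    have h3 : (C (p b - p c + l) : MvPolynomial M A) =
        (X b - X c + C l) - (X b - C (p b)) + (X c - C (p c)) := by
      rw [C_add, C_sub]
      ring
    rw [h3]
    exact PP.add_mem (PP.sub_mem h1 (hP.mem b)) (hP.mem c)
  have h4 := hP.cn _ h2
  linear_combination -h4

/-- a factor of the weight of a pair in the prime ideal -/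
lemma Pt_dc_mem (hP : Pt ε PP p r) {b c : M} (h1 : DC col L b c ∈ PP) :
    ∃ l ∈ L (col b) (col c), p c = p b + l := by
  unfold DC Dw at h1
  rw [hP.pr.multiset_prod_mem_iff_exists_mem] at h1
  obtain ⟨q, hq, hq2⟩ := h1
  rw [Multiset.mem_map] at hq
  obtain ⟨l, hl, rfl⟩ := hq
  exact ⟨l, hl, hP.sub hq2⟩

lemma Pt.not_sub (hP : Pt ε PP p r) {b c : M} {l : A} (h1 : p c ≠ p b + l) :
    X b - X c + C l ∉ PP := fun h => h1 (hP.sub h)

/-- edges go up in rank by one -/
lemma Pt.dc (hP : Pt ε PP p r) (hl : Lbl L Z h ε) {b c : M} (h1 : DC col L b c ∈ PP) :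
    r c = r b + 1 := by
  obtain ⟨l, hlm, hpc⟩ := Pt_dc_mem hP h1
  have h2 : ε (p c) = ε (p b) + ε l := by rw [hpc, map_add]
  rw [hP.rr, hP.rr, hl.eL _ _ l hlm] at h2
  exact_mod_cast h2

/-- no edge of length `h` -/
lemma Pt.dc_h (hP : Pt ε PP p r) (hl : Lbl L Z h ε) {a u : M} (h1 : p u = p a + h) :
    DC col L a u ∉ PP := by
  intro h2
  obtain ⟨l, hlm, hpc⟩ := Pt_dc_mem hP h2
  have h3 : l = h := by
    rw [h1] at hpc
    exact (add_left_cancel hpc).symm
  have h4 := hl.eL _ _ l hlm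
  rw [h3, hl.eh] at h4
  norm_num at h4

lemma Pt.zs (hP : Pt ε PP p r) (hl : Lbl L Z h ε) (u : M) : Zs col Z h u ∉ PP := by
  intro h1
  unfold Zs at h1
  rw [hP.pr.multiset_prod_mem_iff_exists_mem] at h1
  obtain ⟨q, hq, hq2⟩ := h1
  rw [Multiset.mem_map] at hq
  obtain ⟨z, hz, rfl⟩ := hq
  have h2 : C (p u - h - z) ∈ PP := by
    have h3 : (C (p u - h - z) : MvPolynomial M A) =
        (X u - C h - C z) - (X u - C (p u)) := by
      rw [C_sub, C_sub]
      ring
    rw [h3]
    exact PP.sub_mem hq2 (hP.mem u)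
  have h4 : p u = h + z := by linear_combination hP.cn _ h2
  have h5 : ε (p u) = ε h + ε z := by rw [h4, map_add]
  rw [hP.rr, hl.eh, hl.eZ _ z hz, add_zero] at h5
  have h6 : r u = 2 := by exact_mod_cast h5
  have h7 := hP.r0 u
  rw [h6] at h7
  norm_num at h7

lemma prod_notMem (hP : Pt ε PP p r) (s : Finset M) (f : M → MvPolynomial M A)
    (hf : ∀ a ∈ s, f a ∉ PP) : ∏ a ∈ s, f a ∉ PP := by
  haveI := hP.pr
  intro h1
  rw [Ideal.IsPrime.prod_mem_iff] at h1
  obtain ⟨a, ha, ha2⟩ := h1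
  exact hf a ha ha2

/-- the position of one mark -/
lemma Pt_pos (hl : Lbl L Z h ε) (σ : M → ℕ)
    (hPP : PP.IsPrime) (hT : TC col L Z σ ≤ PP) (N : ℕ) (hN : ∀ b, σ b ≤ N) :
    ∀ k : ℕ, ∀ b : M, N - σ b = k →
      ∃ (a : A) (n : ℕ), X b - C a ∈ PP ∧ ε a = -(n : ℂ) := by
  intro k
  induction k using Nat.strong_induction_on with
  | _ k ih =>
    intro b hb
    have h1 : Pr (fun b c => L (col b) (col c)) (fun b => Z (col b)) (up σ) b ∈ PP :=
      hT (Ideal.subset_span ⟨b, rfl⟩)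
    unfold Pr at h1
    rcases hPP.mem_or_mem h1 with h2 | h2
    · unfold Zw at h2
      rw [hPP.multiset_prod_mem_iff_exists_mem] at h2
      obtain ⟨q, hq, hq2⟩ := h2
      rw [Multiset.mem_map] at hq
      obtain ⟨z, hz, rfl⟩ := hq
      refine ⟨z, 0, hq2, ?_⟩
      rw [hl.eZ _ z hz]
      simp
    · haveI := hPP
      rw [Ideal.IsPrime.prod_mem_iff] at h2
      obtain ⟨c, hc, hc2⟩ := h2
      unfold Dw at hc2
      rw [hPP.multiset_prod_mem_iff_exists_mem] at hc2
      obtain ⟨q, hq, hq2⟩ := hc2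
      rw [Multiset.mem_map] at hq
      obtain ⟨l, hlm, rfl⟩ := hq
      have hbc : σ b < σ c := by
        unfold up at hc
        exact (Finset.mem_filter.mp hc).2
      obtain ⟨a, n, ha, hn⟩ := ih (N - σ c) (by have := hN c; omega) c rfl
      refine ⟨a - l, n + 1, ?_, ?_⟩
      · have h3 : (X b - C (a - l) : MvPolynomial M A) = (X b - X c + C l) + (X c - C a) := by
          rw [C_sub]
          ring
        rw [h3]
        exact PP.add_mem hq2 ha
      · rw [map_sub, hn, hl.eL _ _ l hlm]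
        push_cast
        ring

/-- if the triangular ideal of an order is in a prime ideal without constants then this is a
point -/
theorem exists_pt (hl : Lbl L Z h ε) (σ : M → ℕ) (hσ : Function.Injective σ)
    (hPP : PP.IsPrime) (hc : ∀ a : A, C a ∈ PP → a = 0) (hT : TC col L Z σ ≤ PP) :
    ∃ p r, Pt ε PP p r := by
  have hN : ∀ b, σ b ≤ Finset.univ.sup σ := fun b => Finset.le_sup (Finset.mem_univ b)
  have key : ∀ b : M, ∃ (a : A) (n : ℕ), X b - C a ∈ PP ∧ ε a = -(n : ℂ) :=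
    fun b => Pt_pos hl σ hPP hT _ hN _ b rfl
  choose p n hp hn using key
  refine ⟨p, fun b => -(n b : ℚ), hPP, hc, hp, ?_, ?_⟩
  · intro b
    rw [hn]
    push_cast
    rfl
  · intro b
    simp only [Left.neg_nonpos_iff]
    exact Nat.cast_nonneg _


end

end Vale.Agent.P291.K
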