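import Vale.Agent.P291.K.CDefs

set_option autoImplicit false
set_option linter.unusedSectionVars false

/-! The mesh relations. -/

namespace Vale.Agent.P291.K

open MvPolynomial

section
variable {M A I : Type} [CommRing A] [IsDomain A] [Algebra ℚ A] [DecidableEq M] [Fintype M]
  [DecidableEq I]
  (col : M → I) (L : I → I → Multiset A) (Z : I → Multiset A) (h : A)

lemma rank_ite {p q : Prop} {dp : Decidable p} {dq : Decidable q} {α : Type} (x y : α)
    (h : p ↔ q) : @ite α p dp x y = @ite α q dq x y := by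
  by_cases hp : p
  · rw [if_pos hp, if_pos (h.1 hp)]
  · rw [if_neg hp, if_neg fun hq => hp (h.2 hq)]

/-- factors which are removed at the `k`-th step -/
lemma pp_step (σ : M → ℕ) (hσ : Function.Injective σ) {k : ℕ} {u : M} (hu : σ u = k) :
    pp col h (fun a b => ¬ (σ b < σ a ∧ σ b < k)) =
      pp col h (fun a b => ¬ (σ b < σ a ∧ σ b < k + 1)) *
        ∏ a ∈ (Rs σ k).filter (fun a => col a = col u), (X a - X u + C h) := by
  classical
  have h1 : ∏ a ∈ (Rs σ k).filter (fun a => col a = col u), (X a - X u + C h) =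
      ∏ a : M, ∏ b : M, if b = u then
        (if k < σ a ∧ col a = col u then (X a - X u + C h : MvPolynomial M A) else 1) else 1 := by
    have h2 : ∀ a : M, (∏ b : M, if b = u then
        (if k < σ a ∧ col a = col u then (X a - X u + C h : MvPolynomial M A) else 1) else 1) =
        if k < σ a ∧ col a = col u then X a - X u + C h else 1 := by
      intro a
      rw [Finset.prod_ite_eq' Finset.univ u, if_pos (Finset.mem_univ u)]
    rw [Finset.prod_congr rfl fun a _ => h2 a, Rs, Finset.filter_filter, Finset.prod_filter]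
  rw [h1]
  unfold pp
  rw [← Finset.prod_mul_distrib]
  refine Finset.prod_congr rfl fun a _ => ?_
  rw [← Finset.prod_mul_distrib]
  refine Finset.prod_congr rfl fun b _ => ?_
  by_cases hb : b = u
  · subst hb
    rw [if_pos rfl]
    by_cases hc : k < σ a ∧ col a = col b
    · have hab : a ≠ b := by
        rintro rfl
        omega
      rw [if_pos hc, if_pos ⟨hab, hc.2, by omega⟩,
        if_neg (fun h3 => h3.2.2 ⟨by omega, by omega⟩), one_mul]
    · rw [if_neg hc, mul_one]
      refine rank_ite _ _ ?_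
      constructor
      · rintro ⟨h3, h4, h5⟩
        exact ⟨h3, h4, fun h6 => hc ⟨by omega, h4⟩⟩
      · rintro ⟨h3, h4, h5⟩
        exact ⟨h3, h4, fun h6 => by omega⟩
  · rw [if_neg hb, mul_one]
    have hk : σ b ≠ k := fun h3 => hb (hσ (h3.trans hu.symm))
    refine rank_ite _ _ ?_
    constructor
    · rintro ⟨h3, h4, h5⟩
      exact ⟨h3, h4, fun h6 => h5 ⟨h6.1, by omega⟩⟩
    · rintro ⟨h3, h4, h5⟩
      exact ⟨h3, h4, fun h6 => h5 ⟨h6.1, by omega⟩⟩

/-- if no mark has order `k` then nothing changes -/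
lemma pp_none (σ : M → ℕ) {k : ℕ} (hk : ∀ u, σ u ≠ k) :
    pp col h (fun a b => ¬ (σ b < σ a ∧ σ b < k + 1)) =
      pp col h (fun a b => ¬ (σ b < σ a ∧ σ b < k)) := by
  have h1 : (fun a b : M => ¬ (σ b < σ a ∧ σ b < k + 1)) =
      fun a b : M => ¬ (σ b < σ a ∧ σ b < k) := by
    funext a b
    have := hk b
    apply propext
    constructor
    · exact fun h6 h7 => h6 ⟨h7.1, by omega⟩
    · exact fun h6 h7 => h6 ⟨h7.1, by omega⟩
  rw [h1]

lemma rank_TC_congr {α β : Type} [LinearOrder α] [LinearOrder β] {r : M → α} {s : M → β}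
    (h : ∀ b c, c ∈ up r b ↔ c ∈ up s b) : TC col L Z r = TC col L Z s := by
  have h1 : up r = up s := by
    funext b
    ext c
    exact h b c
  unfold TC
  rw [h1]

lemma TC_none (σ : M → ℕ) (hσ : Function.Injective σ) (r : M → ℚ) {k : ℕ} (hk : ∀ u, σ u ≠ k) :
    TC col L Z (rk σ r (k + 1)) = TC col L Z (rk σ r k) := by
  refine rank_TC_congr col L Z fun b c => ?_
  rw [mem_up_rk σ hσ, mem_up_rk σ hσ]
  have h1 := hk b
  have h2 := hk c
  constructor
  · rintro (h3 | h3)
    · exact Or.inl ⟨by omega, h3.2⟩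
    · exact Or.inr ⟨by omega, by omega, h3.2.2⟩
  · rintro (h3 | h3)
    · exact Or.inl ⟨by omega, h3.2⟩
    · exact Or.inr ⟨by omega, by omega, h3.2.2⟩

lemma TC_zero (σ : M → ℕ) (hσ : Function.Injective σ) (r : M → ℚ) :
    TC col L Z (rk σ r 0) = TC col L Z r := by
  refine rank_TC_congr col L Z fun b c => ?_
  rw [mem_up_rk σ hσ, up, Finset.mem_filter]
  constructor
  · rintro (h3 | h3)
    · omega
    · exact ⟨Finset.mem_univ _, h3.2.2⟩
  · rintro ⟨-, h3⟩
    exact Or.inr ⟨Nat.zero_le _, Nat.zero_le _, h3⟩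

lemma TC_last (σ : M → ℕ) (hσ : Function.Injective σ) (r : M → ℚ) {k : ℕ} (hk : ∀ b, σ b < k) :
    TC col L Z (rk σ r k) = TC col L Z σ := by
  refine rank_TC_congr col L Z fun b c => ?_
  rw [mem_up_rk σ hσ, up, Finset.mem_filter]
  have h1 := hk b
  have h2 := hk c
  constructor
  · rintro (h3 | h3)
    · exact ⟨Finset.mem_univ _, h3.2⟩
    · omega
  · rintro ⟨-, h3⟩
    exact Or.inl ⟨h1, h3⟩

end

end Vale.Agent.P291.K
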