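import Vale.Agent.P291.K.AS2
import Vale.Agent.P291.K.Rank
import Vale.Agent.P291.K.Pt

set_option autoImplicit false
set_option linter.unusedSectionVars false

/-! The main induction. -/

namespace Vale.Agent.P291.K

open MvPolynomial

section
variable {M A I : Type} [CommRing A] [IsDomain A] [Algebra ℚ A] [DecidableEq M] [Fintype M]
  [DecidableEq I]

variable {col : M → I} {L : I → I → Multiset A} {Z : I → Multiset A} {h : A} {ε : A →+* ℂ}
  {PP : Ideal (MvPolynomial M A)} {p : M → A} {r : M → ℚ}

lemma start_pp_congr (s : A) {q q' : M → M → Prop} (hq : ∀ a b, q a b ↔ q' a b) :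
    pp col s q = pp col s q' := by
  have : q = q' := funext fun a => funext fun b => propext (hq a b)
  rw [this]

lemma start_sw_pp {a b : M} (hc : col a = col b) (s : A) :
    sw a b (pp col s fun _ _ => True) = pp col s fun _ _ => True := by
  refine rename_pp col (Equiv.swap a b) (fun c => ?_) s _ fun _ _ => Iff.rfl
  rcases eq_or_ne c a with rfl | h1
  · rw [Equiv.swap_apply_left, hc]
  rcases eq_or_ne c b with rfl | h2
  · rw [Equiv.swap_apply_right, hc]
  rw [Equiv.swap_apply_of_ne_of_ne h1 h2]

/-- start: `as_main` for `e b = (col b, p b)` -/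
theorem start (hP : Pt ε PP p r) (hl : Lbl L Z h ε) (σ : M → ℕ) (hσ : Function.Injective σ)
    (f : MvPolynomial M A) (hf : ∀ a b, col a = col b → sw a b f = f)
    (h1 : f * (pp col 0 fun _ _ => True) * (pp col h fun _ _ => True) ∈ TC col L Z r) :
    ∃ s, s ∉ PP ∧ s * (f * (pp col 0 fun a b => σ a < σ b) *
      pp col h fun a b => ¬ (σ b < σ a ∧ σ b < 0)) ∈ TC col L Z (rk σ r 0) := by
  have hE : (pp col h fun a b => ¬ (σ b < σ a ∧ σ b < 0)) = pp col h fun _ _ => True :=
    start_pp_congr h fun a b => by simp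
  rw [hE, TC_zero col L Z σ hσ r]
  obtain ⟨e, -, he⟩ := pp_sq (A := A) col σ hσ
  refine ⟨pp col (0 : A) fun a b => (col a, p a) ≠ (col b, p b), ?_,
    as_main col L Z r (fun b => (col b, p b)) ?_ σ hσ ?_ ?_⟩
  · have h0 : (1 : MvPolynomial M A) ∉ PP := fun h =>
      hP.pr.ne_top ((Ideal.eq_top_iff_one _).2 h)
    unfold pp
    refine prod_notMem hP _ _ fun a _ => prod_notMem hP _ _ fun b _ => ?_
    split_ifs with hab
    · refine hP.not_sub fun hpp => hab.2.2 ?_
      rw [Prod.mk.injEq]
      exact ⟨hab.2.1, by rw [hpp, add_zero]⟩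
    · exact h0
  · intro a b hab
    rw [Prod.mk.injEq] at hab
    refine ⟨hab.1, ?_⟩
    have h2 := hP.rr a
    rw [hab.2, hP.rr b] at h2
    exact_mod_cast h2.symm
  · intro a b hne hab
    have hc : col a = col b := (Prod.mk.injEq _ _ _ _ ▸ hab : _ ∧ _).1
    rw [map_mul, map_mul, hf a b hc, sw_vdm col σ hσ hne hc, start_sw_pp hc]
    ring
  · have h2 : (pp col (0 : A) fun a b => σ a < σ b) *
        (f * (pp col 0 fun a b => σ a < σ b) * pp col h fun _ _ => True) =
        (e : MvPolynomial M A) * (f * (pp col 0 fun _ _ => True) *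
          (pp col h fun _ _ => True)) := by
      calc _ = f * ((pp col (0 : A) fun a b => σ a < σ b) * (pp col 0 fun a b => σ a < σ b)) *
            (pp col h fun _ _ => True) := by ring
        _ = _ := by rw [he]; ring
    rw [h2]
    exact Ideal.mul_mem_left _ _ h1

end

end Vale.Agent.P291.K
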