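import Vale.Agent.P291.K.Step
import Vale.Agent.P291.K.Start

set_option autoImplicit false
set_option linter.unusedSectionVars false

/-! The main induction. -/

namespace Vale.Agent.P291.K

open MvPolynomial

section
variable {M A I : Type} [CommRing A] [IsDomain A] [Algebra ℚ A] [DecidableEq M] [Fintype M]
  [DecidableEq I]

variable {col : M → I} {L : I → I → Multiset A} {Z : I → Multiset A} {h : A} {ε : A →+* ℂ}
  {PP : Ideal (MvPolynomial M A)} {p : M → A} {r : M → ℚ}

/-- all marks are moved -/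
lemma linkT_last (col : M → I) (h : A) (σ : M → ℕ) (hσ : Function.Injective σ) {k : ℕ}
    (hk : ∀ b, σ b < k) :
    (pp col h fun a b => ¬ (σ b < σ a ∧ σ b < k)) = pp col h fun a b => σ a < σ b := by
  unfold pp
  refine Finset.prod_congr rfl fun a _ => Finset.prod_congr rfl fun b _ => ?_
  by_cases hab : a = b
  · subst hab
    simp
  · have h3 : (¬ (σ b < σ a ∧ σ b < k)) ↔ σ a < σ b := by
      have h1 : σ a ≠ σ b := fun e => hab (hσ e)
      have h2 := hk b
      omega
    by_cases h4 : a ≠ b ∧ col a = col b ∧ σ a < σ b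
    · rw [if_pos h4, if_pos ⟨h4.1, h4.2.1, h3.2 h4.2.2⟩]
    · rw [if_neg h4, if_neg fun h5 => h4 ⟨h5.1, h5.2.1, h3.1 h5.2.2⟩]

/-- the iterated step -/
lemma linkT_iter (hP : Pt ε PP p r) (hl : Lbl L Z h ε) (σ : M → ℕ) (hσ : Function.Injective σ)
    (f : MvPolynomial M A)
    (h0 : ∃ s, s ∉ PP ∧ s * (f * (pp col 0 fun a b => σ a < σ b) *
      pp col h fun a b => ¬ (σ b < σ a ∧ σ b < 0)) ∈ TC col L Z (rk σ r 0)) (k : ℕ) :
    ∃ s, s ∉ PP ∧ s * (f * (pp col 0 fun a b => σ a < σ b) *
      pp col h fun a b => ¬ (σ b < σ a ∧ σ b < k)) ∈ TC col L Z (rk σ r k) := by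
  induction k with
  | zero => exact h0
  | succ k ih => exact step hP hl σ hσ f k ih

/-- the main theorem at the level of triangular ideals: if the colon ideal of `y` contains a
nonzero constant use `rg_const`, otherwise take a prime ideal (`Ideal.exists_le_prime_disjoint`) and
use `exists_pt`, `start`, `step`, `TC_last` -/
theorem link_T (hl : Lbl L Z h ε) (f : MvPolynomial M A)
    (hf : ∀ a b, col a = col b → sw a b f = f)
    (h1 : f * (pp col 0 fun _ _ => True) * (pp col h fun _ _ => True) ∈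
      KI (fun b c => L (col b) (col c)) (fun b => Z (col b)))
    (σ : M → ℕ) (hσ : Function.Injective σ) :
    f * (pp col 0 fun a b => σ a < σ b) * (pp col h fun a b => σ a < σ b) ∈ TC col L Z σ := by
  obtain ⟨y, hy⟩ : ∃ y, y = f * (pp col 0 fun a b => σ a < σ b) *
    (pp col h fun a b => σ a < σ b) := ⟨_, rfl⟩
  rw [← hy]
  have hTC : TC col L Z σ = Ideal.span ((Pr (fun b c => L (col b) (col c))
      (fun b => Z (col b)) (up σ)) '' ((Finset.univ : Finset M) : Set M)) := by
    unfold TC TI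
    rw [Finset.coe_univ, Set.image_univ]
  by_cases hcst : ∃ a : A, a ≠ 0 ∧ C a * y ∈ TC col L Z σ
  · obtain ⟨a, ha, hay⟩ := hcst
    have h2 := rg_const σ (Pr (fun b c => L (col b) (col c)) (fun b => Z (col b)) (up σ))
      (tri_Pr (fun b c => L (col b) (col c)) (fun b => Z (col b)) σ (up σ)
        (fun b c hc => (Finset.mem_filter.1 hc).2)) ha
    rw [← hTC] at h2
    exact h2 y hay
  · exfalso
    let J : Ideal (MvPolynomial M A) :=
      { carrier := {s | s * y ∈ TC col L Z σ}
        add_mem' := fun {a b} ha hb => by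
          simp only [Set.mem_ofPred_eq] at ha hb ⊢
          rw [add_mul]
          exact Ideal.add_mem _ ha hb
        zero_mem' := by
          simp only [Set.mem_ofPred_eq, zero_mul]
          exact Ideal.zero_mem _
        smul_mem' := fun c {a} ha => by
          simp only [Set.mem_ofPred_eq, smul_eq_mul] at ha ⊢
          rw [mul_assoc]
          exact Ideal.mul_mem_left _ c ha }
    have hJ : ∀ s, s ∈ J ↔ s * y ∈ TC col L Z σ := fun s => Iff.rfl
    let S : Submonoid (MvPolynomial M A) :=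
      Submonoid.map (C : A →+* MvPolynomial M A) (nonZeroDivisors A)
    have hS : ∀ a : A, a ≠ 0 → C a ∈ S := fun a ha =>
      Submonoid.mem_map_of_mem _ (mem_nonZeroDivisors_iff_ne_zero.2 ha)
    have hdis : Disjoint (J : Set (MvPolynomial M A)) S := by
      rw [Set.disjoint_left]
      rintro _ hx ⟨a, ha, rfl⟩
      exact hcst ⟨a, nonZeroDivisors.ne_zero ha, hx⟩
    obtain ⟨PP, hPP, hJP, hPS⟩ := Ideal.exists_le_prime_disjoint J S hdis
    have hc : ∀ a : A, C a ∈ PP → a = 0 := by
      intro a ha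
      by_contra hne
      exact Set.disjoint_left.1 hPS ha (hS a hne)
    have hT : TC col L Z σ ≤ PP := fun t ht => hJP ((hJ t).2 (Ideal.mul_mem_right _ _ ht))
    obtain ⟨p, r, hP⟩ := exists_pt hl σ hσ hPP hc hT
    have h2 : f * (pp col 0 fun _ _ => True) * (pp col h fun _ _ => True) ∈ TC col L Z r :=
      KI_le _ _ r h1
    obtain ⟨k, hk⟩ : ∃ k, ∀ b, σ b < k := by
      obtain ⟨B, hB⟩ := (Set.finite_range σ).bddAbove
      exact ⟨B + 1, fun b => Nat.lt_succ_of_le (hB ⟨b, rfl⟩)⟩
    obtain ⟨s, hs, hsy⟩ := linkT_iter hP hl σ hσ f (start hP hl σ hσ f hf h2) k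
    rw [linkT_last col h σ hσ hk, TC_last col L Z σ hσ r hk, ← hy] at hsy
    exact hs (hJP ((hJ s).2 hsy))

end

end Vale.Agent.P291.K
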