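import Vale.Agent.P291.K.CDefs

set_option autoImplicit false
set_option linter.unusedSectionVars false

/-! The mesh relations. -/

namespace Vale.Agent.P291.K

open MvPolynomial

section
variable {M A I : Type} [CommRing A] [IsDomain A] [Algebra ℚ A] [DecidableEq M] [Fintype M]
  [DecidableEq I]
  (col : M → I) (L : I → I → Multiset A) (Z : I → Multiset A) (h : A)

lemma HH_eval_u (R : Finset M) (u : M) :
    (HH col L Z h R (col u)).eval (X u) = (∏ d ∈ R, DC col L d u) * Zs col Z h u := by
  unfold HH DC Dw Zs
  rw [Polynomial.eval_mul, Polynomial.eval_prod]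
  congr 1
  · refine Finset.prod_congr rfl fun d _ => ?_
    rw [Polynomial.eval_multiset_prod, Multiset.map_map]
    congr 1
    refine Multiset.map_congr rfl fun l _ => ?_
    simp
  · rw [Polynomial.eval_multiset_prod, Multiset.map_map]
    congr 1
    refine Multiset.map_congr rfl fun z _ => ?_
    simp

/-- reversal of one weight: the weight of `d → u` at the position `x a + h` is a sign times the
weight of `a → d` -/
lemma Mesh_rev (hL : ∀ i j, L j i = (L i j).map fun l => h - l) {u a : M} (hc : col a = col u)
    (d : M) :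
    DC col L a d ∣ (((L (col d) (col u)).map fun l =>
      Polynomial.C (X d) - Polynomial.X + Polynomial.C (C l)).prod : Polynomial
        (MvPolynomial M A)).eval (X a + C h) := by
  have h1 : (((L (col d) (col u)).map fun l =>
      Polynomial.C (X d) - Polynomial.X + Polynomial.C (C l)).prod : Polynomial
        (MvPolynomial M A)).eval (X a + C h) =
      ((L (col a) (col d)).map fun l => -(X a - X d + C l : MvPolynomial M A)).prod := by
    rw [Polynomial.eval_multiset_prod, Multiset.map_map, ← hc, hL (col a) (col d),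
      Multiset.map_map]
    congr 1
    refine Multiset.map_congr rfl fun l _ => ?_
    simp
    ring
  have h2 : (fun l => -(X a - X d + C l : MvPolynomial M A)) =
      fun l => (-1) * (X a - X d + C l : MvPolynomial M A) := by
    funext l
    ring
  rw [h1, h2, Multiset.prod_map_mul]
  exact Dvd.intro_left _ rfl

/-- the framing weight at `x a + h` -/
lemma Mesh_frame {u a : M} (hc : col a = col u) :
    (((Z (col u)).map fun z => Polynomial.X - Polynomial.C (C h) - Polynomial.C (C z)).prod :
      Polynomial (MvPolynomial M A)).eval (X a + C h) = Zw (fun b => Z (col b)) a := by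
  unfold Zw
  rw [Polynomial.eval_multiset_prod, Multiset.map_map]
  simp only [hc]
  congr 1
  refine Multiset.map_congr rfl fun z _ => ?_
  simp

/-- the mesh relation: `D d u` at `x u = x a + h` is `± D a d`, and it is a constant for `d = a` -/
theorem mesh (hL : ∀ i j, L j i = (L i j).map fun l => h - l) (σ : M → ℕ)
    (hσ : Function.Injective σ) (r : M → ℚ) {k : ℕ} {u : M} (hu : σ u = k) {a : M}
    (ha : a ∈ Rs σ k) (hc : col a = col u) :
    PC col L Z (rk σ r k) a ∣ DC col L a u * (HH col L Z h (Rs σ k) (col u)).eval (X a + C h) := by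
  have hak : k < σ a := by
    simpa [Rs] using ha
  have hu' : u ∉ Rs σ k := by
    simp [Rs, hu]
  have hsub : up (rk σ r k) a ⊆ insert u (Rs σ k) := by
    intro c hcu
    rw [mem_up_rk σ hσ] at hcu
    rw [Finset.mem_insert]
    rcases hcu with ⟨h1, _⟩ | ⟨_, h2, _⟩
    · omega
    · rcases Nat.lt_or_ge k (σ c) with h3 | h3
      · right
        simpa [Rs] using h3
      · left
        exact hσ (by omega)
  have h1 : (∏ c ∈ up (rk σ r k) a, DC col L a c) ∣
      DC col L a u * ∏ d ∈ Rs σ k, DC col L a d := by
    rw [← Finset.prod_insert hu']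
    exact Finset.prod_dvd_prod_of_subset _ _ _ hsub
  have h2 : (∏ d ∈ Rs σ k, DC col L a d) ∣ (∏ d ∈ Rs σ k, ((L (col d) (col u)).map fun l =>
      Polynomial.C (X d) - Polynomial.X + Polynomial.C (C l)).prod : Polynomial
        (MvPolynomial M A)).eval (X a + C h) := by
    rw [Polynomial.eval_prod]
    exact Finset.prod_dvd_prod_of_dvd _ _ fun d _ => Mesh_rev col L h hL hc d
  unfold PC Pr HH
  rw [Polynomial.eval_mul, Mesh_frame col Z h hc, ← mul_assoc, mul_comm]
  exact mul_dvd_mul (h1.trans (mul_dvd_mul dvd_rfl h2)) dvd_rfl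

/-- the Vandermonde product of a subset of one colour divides the full one -/
lemma vdm_dvd (σ : M → ℕ) (s : Finset M) (hs : ∀ a ∈ s, ∀ b ∈ s, col a = col b) :
    (∏ a ∈ s, ∏ b ∈ s.filter (fun b => σ a < σ b), (X a - X b : MvPolynomial M A)) ∣
      pp col 0 fun a b => σ a < σ b := by
  classical
  unfold pp
  refine dvd_trans ?_ (Finset.prod_dvd_prod_of_subset s Finset.univ _ (Finset.subset_univ _))
  refine Finset.prod_dvd_prod_of_dvd _ _ fun a ha => ?_
  refine dvd_trans ?_ (Finset.prod_dvd_prod_of_subset (s.filter fun b => σ a < σ b)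
    Finset.univ _ (Finset.subset_univ _))
  refine Finset.prod_dvd_prod_of_dvd _ _ fun b hb => ?_
  rw [Finset.mem_filter] at hb
  have hab : a ≠ b := by
    rintro rfl
    exact lt_irrefl _ hb.2
  rw [if_pos ⟨hab, hs a ha b hb.1, hb.2⟩]
  simp

end

end Vale.Agent.P291.K
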