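import Mathlib

set_option autoImplicit false

/-! Newton interpolation. -/

namespace Vale.Agent.P291.K

/-- Newton interpolation at the nodes `x a`, `a ∈ s`.  Induction on `s`
(`Finset.induction_on_max_value σ` or similar): `H = H(x a) + (y - x a) H₁` and
`(x b - x a) H₁(x b) = H(x b) - H(x a)`. -/
theorem newton {R ι : Type} [CommRing R] [DecidableEq ι] (x : ι → R) (σ : ι → ℕ)
    (hσ : Function.Injective σ) (y : R) (s : Finset ι) : ∀ H : Polynomial R, ∃ Q : R,
    (∏ a ∈ s, ∏ b ∈ s.filter (fun b => σ a < σ b), (x a - x b)) *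
      (H.eval y - Q * ∏ a ∈ s, (y - x a)) ∈ Ideal.span ((fun a => H.eval (x a)) '' s) := by
  induction s using Finset.induction_on_max_value σ with
  | empty =>
    intro H
    refine ⟨H.eval y, ?_⟩
    simp
  | insert m s hm hmax ih =>
    intro H
    -- division by `X - x m`
    set H₁ : Polynomial R := H /ₘ (Polynomial.X - Polynomial.C (x m)) with hH₁
    have hdiv : ∀ z : R, H.eval z = H.eval (x m) + (z - x m) * H₁.eval z := by
      intro z
      have h1 := congrArg (Polynomial.eval z)
        (Polynomial.modByMonic_add_div H (Polynomial.X - Polynomial.C (x m)))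
      rw [Polynomial.modByMonic_X_sub_C_eq_C_eval, Polynomial.eval_add, Polynomial.eval_mul,
        Polynomial.eval_C, Polynomial.eval_sub, Polynomial.eval_X, Polynomial.eval_C] at h1
      exact h1.symm
    obtain ⟨Q, hQ⟩ := ih H₁
    refine ⟨Q, ?_⟩
    set I := Ideal.span ((fun a => H.eval (x a)) '' ((insert m s : Finset ι) : Set ι)) with hI
    have hmI : H.eval (x m) ∈ I :=
      Ideal.subset_span ⟨m, Finset.mem_coe.2 (Finset.mem_insert_self m s), rfl⟩
    have hbI : ∀ b ∈ s, (x b - x m) * H₁.eval (x b) ∈ I := by
      intro b hb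
      have h1 : (x b - x m) * H₁.eval (x b) = H.eval (x b) - H.eval (x m) := by
        rw [hdiv (x b)]
        ring
      rw [h1]
      exact I.sub_mem
        (Ideal.subset_span ⟨b, Finset.mem_coe.2 (Finset.mem_insert_of_mem hb), rfl⟩) hmI
    -- the product of the new differences kills the values of `H₁` modulo `I`
    have hE : ∀ u ∈ Ideal.span ((fun a => H₁.eval (x a)) '' (s : Set ι)),
        (∏ a ∈ s, (x a - x m)) * u ∈ I := by
      intro u hu
      induction hu using Submodule.span_induction with
      | mem u hu =>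
        obtain ⟨b, hb, rfl⟩ := hu
        have hb' : b ∈ s := Finset.mem_coe.1 hb
        rw [← Finset.mul_prod_erase s (fun a => x a - x m) hb']
        have h1 : (x b - x m) * (∏ a ∈ s.erase b, (x a - x m)) * (fun a => H₁.eval (x a)) b =
            (∏ a ∈ s.erase b, (x a - x m)) * ((x b - x m) * H₁.eval (x b)) := by
          ring
        rw [h1]
        exact I.mul_mem_left _ (hbI b hb')
      | zero =>
        rw [mul_zero]
        exact I.zero_mem
      | add u v _ _ hu hv =>
        rw [mul_add]
        exact I.add_mem hu hv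
      | smul r u _ hu =>
        rw [smul_eq_mul, mul_left_comm]
        exact I.mul_mem_left _ hu
    have hσm : ∀ a ∈ s, σ a < σ m := fun a ha =>
      lt_of_le_of_ne (hmax a ha) fun h => hm (hσ h ▸ ha)
    have hprod : (∏ a ∈ insert m s, ∏ b ∈ (insert m s).filter (fun b => σ a < σ b),
        (x a - x b)) = (∏ a ∈ s, ∏ b ∈ s.filter (fun b => σ a < σ b), (x a - x b)) *
        ∏ a ∈ s, (x a - x m) := by
      rw [Finset.prod_insert hm]
      have h1 : (insert m s).filter (fun b => σ m < σ b) = ∅ := by
        rw [Finset.filter_eq_empty_iff]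
        intro b hb
        rcases Finset.mem_insert.1 hb with rfl | hb
        · exact lt_irrefl _
        · exact not_lt.2 (hmax b hb)
      rw [h1, Finset.prod_empty, one_mul, ← Finset.prod_mul_distrib]
      refine Finset.prod_congr rfl fun a ha => ?_
      rw [Finset.filter_insert, if_pos (hσm a ha), Finset.prod_insert, mul_comm]
      exact fun h => hm (Finset.mem_filter.1 h).1
    rw [hprod, Finset.prod_insert hm, hdiv y]
    have h2 := I.mul_mem_left (y - x m) (hE _ hQ)
    have h3 := I.mul_mem_left ((∏ a ∈ s, ∏ b ∈ s.filter (fun b => σ a < σ b), (x a - x b)) *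
        ∏ a ∈ s, (x a - x m)) hmI
    have h4 := I.add_mem h2 h3
    convert h4 using 1
    ring

end Vale.Agent.P291.K
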