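import Vale.Agent.P291.K.Defs

set_option autoImplicit false
set_option linter.unusedSectionVars false

/-! Regular elements modulo triangular ideals. -/

namespace Vale.Agent.P291.K

open MvPolynomial

section
variable {M A : Type} [CommRing A] [DecidableEq M]

lemma tau_coeff (b : M) (f : MvPolynomial M A) : (tau b f).coeff 0 = f := by
  have h : (Polynomial.evalRingHom (0 : MvPolynomial M A)).comp (tau b).toRingHom =
      RingHom.id (MvPolynomial M A) := by
    apply MvPolynomial.ringHom_ext
    · intro a
      simp [tau, Polynomial.algebraMap_apply]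
    · intro c
      by_cases hc : c = b
      · simp [tau, hc]
      · simp [tau, hc]
  have h2 := congrArg (fun φ => φ f) h
  rw [Polynomial.coeff_zero_eq_eval_zero]
  simpa using h2

lemma free_mul {b : M} {f g : MvPolynomial M A} (hf : Free b f) (hg : Free b g) :
    Free b (f * g) := by
  unfold Free at *
  rw [map_mul, hf, hg, Polynomial.C_mul]

lemma free_one (b : M) : Free b (1 : MvPolynomial M A) := by
  unfold Free
  rw [map_one, Polynomial.C_1]

lemma free_C (b : M) (a : A) : Free b (C a : MvPolynomial M A) := by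
  unfold Free tau
  rw [aeval_C, Polynomial.algebraMap_apply, MvPolynomial.algebraMap_eq]

lemma free_prod {ι : Type} {b : M} (s : Finset ι) (f : ι → MvPolynomial M A)
    (h : ∀ i ∈ s, Free b (f i)) : Free b (∏ i ∈ s, f i) := by
  unfold Free at *
  rw [map_prod, map_prod]
  exact Finset.prod_congr rfl h

lemma mon_mul {b : M} {f g : MvPolynomial M A} (hf : Mon b f) (hg : Mon b g) : Mon b (f * g) := by
  unfold Mon at *
  rw [map_mul]
  exact hf.mul hg

lemma mon_one (b : M) : Mon b (1 : MvPolynomial M A) := by
  unfold Mon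
  rw [map_one]
  exact Polynomial.monic_one

lemma mon_prod {ι : Type} {b : M} (s : Finset ι) (f : ι → MvPolynomial M A)
    (h : ∀ i ∈ s, Mon b (f i)) : Mon b (∏ i ∈ s, f i) := by
  unfold Mon at *
  rw [map_prod]
  exact Polynomial.monic_prod_of_monic s _ h

lemma reg_tau_X_self (b : M) :
    tau b (X b : MvPolynomial M A) = Polynomial.C (X b) + Polynomial.X := by
  simp [tau]

lemma reg_tau_X_ne {b c : M} (h : c ≠ b) :
    tau b (X c : MvPolynomial M A) = Polynomial.C (X c) := by
  simp [tau, h]

lemma reg_tau_C (b : M) (a : A) :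
    tau b (C a : MvPolynomial M A) = Polynomial.C (C a) := free_C b a

lemma reg_mon_multiset (b : M) (m : Multiset (MvPolynomial M A)) (h : ∀ x ∈ m, Mon b x) :
    Mon b m.prod := by
  induction m using Multiset.induction_on with
  | empty => simpa using mon_one (A := A) b
  | cons a m ih =>
    rw [Multiset.prod_cons]
    exact mon_mul (h a (Multiset.mem_cons_self a m))
      (ih fun x hx => h x (Multiset.mem_cons_of_mem hx))

lemma reg_free_multiset (b : M) (m : Multiset (MvPolynomial M A)) (h : ∀ x ∈ m, Free b x) :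
    Free b m.prod := by
  induction m using Multiset.induction_on with
  | empty => simpa using free_one (A := A) b
  | cons a m ih =>
    rw [Multiset.prod_cons]
    exact free_mul (h a (Multiset.mem_cons_self a m))
      (ih fun x hx => h x (Multiset.mem_cons_of_mem hx))

/-- a difference is monic in the first variable -/
lemma mon_sub {b c : M} (h : b ≠ c) (s : A) : Mon b (X b - X c + C s : MvPolynomial M A) := by
  unfold Mon
  have e : tau b (X b - X c + C s : MvPolynomial M A) =
      Polynomial.X + Polynomial.C (X b - X c + C s) := by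
    rw [map_add, map_sub, reg_tau_X_self, reg_tau_X_ne (Ne.symm h), reg_tau_C,
      Polynomial.C_add, Polynomial.C_sub]
    ring
  rw [e]
  exact Polynomial.monic_X_add_C _

lemma free_sub {b c d : M} (hb : d ≠ b) (hc : d ≠ c) (s : A) :
    Free d (X b - X c + C s : MvPolynomial M A) := by
  unfold Free
  rw [map_add, map_sub, reg_tau_X_ne (Ne.symm hb), reg_tau_X_ne (Ne.symm hc), reg_tau_C,
    Polynomial.C_add, Polynomial.C_sub]

lemma mon_Dw (L : M → M → Multiset A) {b c : M} (h : b ≠ c) : Mon b (Dw L b c) := by
  unfold Dw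
  apply reg_mon_multiset
  intro x hx
  obtain ⟨l, -, rfl⟩ := Multiset.mem_map.1 hx
  exact mon_sub h l

lemma free_Dw (L : M → M → Multiset A) {b c d : M} (hb : d ≠ b) (hc : d ≠ c) :
    Free d (Dw L b c) := by
  unfold Dw
  apply reg_free_multiset
  intro x hx
  obtain ⟨l, -, rfl⟩ := Multiset.mem_map.1 hx
  exact free_sub hb hc l

lemma mon_Zw (Z : M → Multiset A) (b : M) : Mon b (Zw Z b) := by
  unfold Zw
  apply reg_mon_multiset
  intro x hx
  obtain ⟨z, -, rfl⟩ := Multiset.mem_map.1 hx
  unfold Mon
  have e : tau b (X b - C z : MvPolynomial M A) = Polynomial.X + Polynomial.C (X b - C z) := by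
    rw [map_sub, reg_tau_X_self, reg_tau_C, Polynomial.C_sub]
    ring
  rw [e]
  exact Polynomial.monic_X_add_C _

lemma free_Zw (Z : M → Multiset A) {b d : M} (hb : d ≠ b) : Free d (Zw Z b) := by
  unfold Zw
  apply reg_free_multiset
  intro x hx
  obtain ⟨z, -, rfl⟩ := Multiset.mem_map.1 hx
  unfold Free
  rw [map_sub, reg_tau_X_ne (Ne.symm hb), reg_tau_C, Polynomial.C_sub]

/-- a monic element is regular modulo an ideal generated by elements without the variable:
apply `tau b`, in `(S ⧸ I)[s]` a monic polynomial is regular; take the coefficient of `s ^ 0` -/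
lemma rg_of_mon (b : M) (G : Set (MvPolynomial M A)) (hG : ∀ g ∈ G, Free b g)
    {q : MvPolynomial M A} (hq : Mon b q) : Rg q (Ideal.span G) := by
  intro y hy
  set I := Ideal.span G
  set φ : MvPolynomial M A →+* Polynomial (MvPolynomial M A ⧸ I) :=
    (Polynomial.mapRingHom (Ideal.Quotient.mk I)).comp (tau b).toRingHom
  have hφa : ∀ f, φ f = (tau b f).map (Ideal.Quotient.mk I) := fun f => rfl
  have hker : I ≤ RingHom.ker φ := by
    refine Ideal.span_le.2 ?_
    intro g hg
    rw [SetLike.mem_coe, RingHom.mem_ker, hφa]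
    have h1 : tau b g = Polynomial.C g := hG g hg
    rw [h1, Polynomial.map_C, Ideal.Quotient.eq_zero_iff_mem.2 (Ideal.subset_span hg),
      Polynomial.C_0]
  have h0 : φ (q * y) = 0 := hker hy
  rw [map_mul] at h0
  have hm : (φ q).Monic := by
    rw [hφa]
    exact Polynomial.Monic.map _ hq
  have h1 : φ y = 0 := (Polynomial.Monic.mul_right_eq_zero_iff hm).1 h0
  have h2 : (φ y).coeff 0 = 0 := by
    rw [h1, Polynomial.coeff_zero]
  rw [hφa, Polynomial.coeff_map, tau_coeff] at h2
  exact Ideal.Quotient.eq_zero_iff_mem.1 h2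

/-- one may add a monic relation: if `q y = a P + g` then `P a ∈ (q) + (G)`, so `a = q a' + g'` by
`rg_of_mon`, and `q (y - a' P) ∈ (G)` -/
lemma rg_insert (b : M) (G : Set (MvPolynomial M A)) (hG : ∀ g ∈ G, Free b g)
    {q P : MvPolynomial M A} (hq : Free b q) (hP : Mon b P) (h : Rg q (Ideal.span G)) :
    Rg q (Ideal.span (insert P G)) := by
  intro y hy
  obtain ⟨a, z, hz, hy⟩ := Ideal.mem_span_insert.1 hy
  have h1 : P * a ∈ Ideal.span (insert q G) := by
    rw [Ideal.mem_span_insert]
    refine ⟨y, -z, neg_mem hz, ?_⟩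
    linear_combination -hy
  have h2 : a ∈ Ideal.span (insert q G) := by
    refine rg_of_mon b (insert q G) ?_ hP a h1
    intro g hg
    rcases Set.mem_insert_iff.1 hg with rfl | hg
    · exact hq
    · exact hG g hg
  obtain ⟨a', g', hg', ha⟩ := Ideal.mem_span_insert.1 h2
  have h3 : q * (y - a' * P) ∈ Ideal.span G := by
    have e : q * (y - a' * P) = z + P * g' := by
      linear_combination hy + P * ha
    rw [e]
    exact add_mem hz (Ideal.mul_mem_left _ _ hg')
  have h4 := h _ h3
  rw [Ideal.mem_span_insert]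
  exact ⟨a', y - a' * P, h4, by ring⟩

lemma rg_mul {q q' : MvPolynomial M A} {I : Ideal (MvPolynomial M A)} (h : Rg q I)
    (h' : Rg q' I) : Rg (q * q') I := by
  intro y hy
  apply h'
  apply h
  rwa [← mul_assoc]

end

end Vale.Agent.P291.K
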