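import Vale.Agent.P291.K.Reg

set_option autoImplicit false
set_option linter.unusedSectionVars false

/-! Regular elements modulo triangular systems. -/

namespace Vale.Agent.P291.K

open MvPolynomial

section
variable {M A : Type} [CommRing A] [DecidableEq M]
variable {α : Type} [LinearOrder α]

lemma reg2_tri_mono {r : M → α} {P : M → MvPolynomial M A} {B B' : Finset M} (hT : Tri r P B)
    (h : B' ⊆ B) : Tri r P B' :=
  ⟨fun b hb => hT.mon b (h hb), fun b hb c hc hbc hr => hT.free b (h hb) c (h hc) hbc hr⟩

/-- add the relations `P b`, `b ∈ B'`, in order of decreasing rank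
(`Finset.induction_on_min_value`) -/
lemma rg_ext (r : M → α) (P : M → MvPolynomial M A) {B B' : Finset M} (hT : Tri r P (B ∪ B'))
    (hd : Disjoint B B') (q : MvPolynomial M A) (hq : ∀ b ∈ B', Free b q)
    (hr : ∀ b ∈ B', ∀ c ∈ B, r b ≤ r c) (h : Rg q (Ideal.span (P '' B))) :
    Rg q (Ideal.span (P '' (B ∪ B' : Finset M))) := by
  induction B' using Finset.induction_on_min_value r with
  | empty => rwa [Finset.union_empty]
  | insert a s has hmin ih =>
    have hsub : B ∪ s ⊆ B ∪ insert a s :=
      Finset.union_subset_union_right (Finset.subset_insert a s)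
    have ha : a ∈ B ∪ insert a s := Finset.mem_union_right _ (Finset.mem_insert_self a s)
    have haB : a ∉ B := fun h' =>
      Finset.disjoint_left.1 hd h' (Finset.mem_insert_self a s)
    have h1 := ih (reg2_tri_mono hT hsub)
      (hd.mono_right (Finset.subset_insert a s))
      (fun b hb => hq b (Finset.mem_insert_of_mem hb))
      (fun b hb => hr b (Finset.mem_insert_of_mem hb))
    have h2 : P '' ((B ∪ insert a s : Finset M) : Set M) =
        insert (P a) (P '' ((B ∪ s : Finset M) : Set M)) := by
      rw [Finset.union_insert, Finset.coe_insert, Set.image_insert_eq]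
    rw [h2]
    refine rg_insert a _ ?_ (hq a (Finset.mem_insert_self a s)) (hT.mon a ha) h1
    rintro _ ⟨c, hc, rfl⟩
    have hc' : c ∈ B ∪ s := hc
    refine hT.free a ha c (hsub hc') ?_ ?_
    · rintro rfl
      rcases Finset.mem_union.1 hc' with h3 | h3
      · exact haB h3
      · exact has h3
    · rcases Finset.mem_union.1 hc' with h3 | h3
      · exact hr a (Finset.mem_insert_self a s) c h3
      · exact hmin c h3

/-- a monic element in the variable `a` which only depends on variables of larger rank -/
lemma rg_mon (r : M → α) (P : M → MvPolynomial M A) {B : Finset M} (hT : Tri r P B) (a : M)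
    (ha : a ∉ B) (haP : ∀ b ∈ B, r a ≤ r b → Free a (P b)) {q : MvPolynomial M A}
    (hq : Mon a q) (hqf : ∀ b ∈ B, r b < r a → Free b q) :
    Rg q (Ideal.span (P '' B)) := by
  have hB : B.filter (fun b => r a ≤ r b) ∪ B.filter (fun b => ¬ r a ≤ r b) = B :=
    Finset.filter_union_filter_not_eq _ B
  have h1 : Rg q (Ideal.span (P '' (B.filter (fun b => r a ≤ r b) : Finset M))) := by
    refine rg_of_mon a _ ?_ hq
    rintro _ ⟨c, hc, rfl⟩
    have hc' := Finset.mem_filter.1 (Finset.mem_coe.1 hc)
    exact haP c hc'.1 hc'.2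
  have h2 := rg_ext r P (B := B.filter fun b => r a ≤ r b)
    (B' := B.filter fun b => ¬ r a ≤ r b) (by rw [hB]; exact hT)
    (Finset.disjoint_filter_filter_not _ _ _) q
    (fun b hb => hqf b (Finset.mem_filter.1 hb).1 (not_le.1 (Finset.mem_filter.1 hb).2))
    (fun b hb c hc => (not_le.1 (Finset.mem_filter.1 hb).2).le.trans (Finset.mem_filter.1 hc).2)
    h1
  rwa [hB] at h2

/-- constants -/
lemma rg_const [IsDomain A] (r : M → α) (P : M → MvPolynomial M A) {B : Finset M}
    (hT : Tri r P B) {a : A} (ha : a ≠ 0) : Rg (C a) (Ideal.span (P '' B)) := by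
  have h1 : Rg (C a) (Ideal.span (P '' ((∅ : Finset M) : Set M))) := by
    intro y hy
    rw [Finset.coe_empty, Set.image_empty, Ideal.span_empty, Ideal.mem_bot] at hy ⊢
    rcases mul_eq_zero.1 hy with h2 | h2
    · exact absurd (C_eq_zero.1 h2) ha
    · exact h2
  have h2 := rg_ext r P (B := ∅) (B' := B) (by rwa [Finset.empty_union])
    (Finset.disjoint_empty_left _) (C a) (fun b _ => free_C b a)
    (fun _ _ c hc => absurd hc (Finset.notMem_empty c)) h1
  rwa [Finset.empty_union] at h2

/-- removing a factor of one relation: if `q y = q P' c + j` then `q (y - P' c)` is in the ideal of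
the other relations, use `rg_mon` -/
lemma colon_one (r : M → α) (P P' : M → MvPolynomial M A) (B : Finset M) {a : M} (ha : a ∈ B)
    (q : MvPolynomial M A) (hP : P a = q * P' a) (hPb : ∀ b ∈ B, b ≠ a → P b = P' b)
    (hT : Tri r P B) (hq : Mon a q) (hqf : ∀ b ∈ B, r b < r a → Free b q)
    {y : MvPolynomial M A} (hy : q * y ∈ Ideal.span (P '' B)) :
    y ∈ Ideal.span (P' '' B) := by
  have h1 : P '' (B : Set M) = insert (P a) (P '' ((B.erase a : Finset M) : Set M)) := by
    rw [← Set.image_insert_eq, ← Finset.coe_insert, Finset.insert_erase ha]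
  rw [h1, Ideal.mem_span_insert] at hy
  obtain ⟨c, j, hj, hy⟩ := hy
  have h2 : q * (y - c * P' a) ∈ Ideal.span (P '' ((B.erase a : Finset M) : Set M)) := by
    have h3 : q * (y - c * P' a) = j := by
      rw [mul_sub, hy, hP]
      ring
    rw [h3]
    exact hj
  have h3 := rg_mon r P (reg2_tri_mono hT (Finset.erase_subset a B)) a (Finset.notMem_erase a B)
    (fun b hb hab => hT.free a ha b (Finset.mem_of_mem_erase hb)
      (Finset.ne_of_mem_erase hb).symm hab) hq
    (fun b hb => hqf b (Finset.mem_of_mem_erase hb)) _ h2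
  have h4 : Ideal.span (P '' ((B.erase a : Finset M) : Set M)) ≤ Ideal.span (P' '' B) := by
    rw [Ideal.span_le]
    rintro _ ⟨b, hb, rfl⟩
    have hb' : b ∈ B.erase a := hb
    rw [hPb b (Finset.mem_of_mem_erase hb') (Finset.ne_of_mem_erase hb')]
    exact Ideal.subset_span ⟨b, Finset.mem_of_mem_erase hb', rfl⟩
  have h5 : P' a ∈ Ideal.span (P' '' (B : Set M)) := Ideal.subset_span ⟨a, ha, rfl⟩
  have h6 : y = (y - c * P' a) + c * P' a := by ring
  rw [h6]
  exact Ideal.add_mem _ (h4 h3) (Ideal.mul_mem_left _ c h5)

/-- removing factors of several relations: induction on `V` with `colon_one` for the systems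
`fun b => if b ∈ V then P b else P' b` -/
lemma colon [Fintype M] (r : M → α) (P P' : M → MvPolynomial M A) (V : Finset M)
    (q : M → MvPolynomial M A) (hP : ∀ v ∈ V, P v = q v * P' v) (hPb : ∀ b ∉ V, P b = P' b)
    (hT : Tri r P Finset.univ) (hT' : Tri r P' Finset.univ) (hq : ∀ v ∈ V, Mon v (q v))
    (hqf : ∀ v ∈ V, ∀ b, r b < r v → Free b (q v))
    {y : MvPolynomial M A} (hy : (∏ v ∈ V, q v) * y ∈ Ideal.span (Set.range P)) :
    y ∈ Ideal.span (Set.range P') := by
  have key : ∀ W : Finset M, W ⊆ V → ∀ y : MvPolynomial M A,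
      (∏ v ∈ W, q v) * y ∈ Ideal.span (Set.range fun b => if b ∈ W then P b else P' b) →
      y ∈ Ideal.span (Set.range P') := by
    intro W
    induction W using Finset.induction_on with
    | empty =>
      intro _ y hy
      simpa using hy
    | insert a W haW ih =>
      intro hW y hy
      have haV : a ∈ V := hW (Finset.mem_insert_self a W)
      refine ih (fun b hb => hW (Finset.mem_insert_of_mem hb)) y ?_
      rw [Finset.prod_insert haW, mul_assoc] at hy
      have h1 := colon_one r (fun b => if b ∈ insert a W then P b else P' b)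
        (fun b => if b ∈ W then P b else P' b) Finset.univ (Finset.mem_univ a) (q a)
        (by
          rw [if_pos (Finset.mem_insert_self a W), if_neg haW]
          exact hP a haV)
        (fun b _ hba => by
          by_cases hbW : b ∈ W
          · rw [if_pos (Finset.mem_insert_of_mem hbW), if_pos hbW]
          · rw [if_neg hbW, if_neg]
            rw [Finset.mem_insert]
            rintro (h2 | h2)
            · exact hba h2
            · exact hbW h2)
        ⟨fun b hb => by
          split_ifs
          · exact hT.mon b hb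
          · exact hT'.mon b hb, fun b hb c hc hbc hr => by
          split_ifs
          · exact hT.free b hb c hc hbc hr
          · exact hT'.free b hb c hc hbc hr⟩
        (hq a haV) (fun b _ hb => hqf a haV b hb) (y := (∏ v ∈ W, q v) * y)
        (by rwa [Finset.coe_univ, Set.image_univ])
      rwa [Finset.coe_univ, Set.image_univ] at h1
  refine key V (Finset.Subset.refl V) y ?_
  have h1 : (fun b => if b ∈ V then P b else P' b) = P := by
    funext b
    split_ifs with hb
    · rfl
    · exact (hPb b hb).symm
  rw [h1]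
  exact hy

/-- `Pr L Z T` is triangular -/
lemma tri_Pr [Fintype M] (L : M → M → Multiset A) (Z : M → Multiset A) (r : M → α)
    (T : M → Finset M) (hT : ∀ b, ∀ c ∈ T b, r b < r c) : Tri r (Pr L Z T) Finset.univ := by
  refine ⟨fun b _ => ?_, fun b _ c _ hbc hr => ?_⟩
  · refine mon_mul (mon_Zw Z b) (mon_prod _ _ fun c hc => mon_Dw L ?_)
    rintro rfl
    exact lt_irrefl _ (hT b b hc)
  · refine free_mul (free_Zw Z hbc) (free_prod _ _ fun d hd => free_Dw L hbc ?_)
    rintro rfl
    exact lt_irrefl _ ((hT c b hd).trans_le hr)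

end

section
variable {M A : Type} [CommRing A] [DecidableEq M] [Fintype M]

/-- a cut is a multiple of the relation at an element of `N` of maximal rank -/
lemma cut_mem {α : Type} [LinearOrder α] (L : M → M → Multiset A) (Z : M → Multiset A)
    (r : M → α) {N : Finset M} (hN : N.Nonempty) : cut L Z N ∈ TI L Z (up r) := by
  obtain ⟨b, hb, hmax⟩ := Finset.exists_max_image N r hN
  have h1 : Pr L Z (up r) b ∈ TI L Z (up r) := Ideal.subset_span ⟨b, rfl⟩
  refine Ideal.mem_of_dvd _ ?_ h1
  refine mul_dvd_mul (Finset.dvd_prod_of_mem _ hb) ?_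
  refine dvd_trans ?_ (Finset.dvd_prod_of_mem (fun b => ∏ c ∈ Nᶜ, Dw L b c) hb)
  refine Finset.prod_dvd_prod_of_subset _ _ _ fun c hc => ?_
  rw [Finset.mem_compl]
  intro hcN
  exact absurd (hmax c hcN) (not_le.2 (Finset.mem_filter.1 hc).2)

lemma KI_le {α : Type} [LinearOrder α] (L : M → M → Multiset A) (Z : M → Multiset A)
    (r : M → α) : KI L Z ≤ TI L Z (up r) := by
  rw [KI, Ideal.span_le]
  rintro _ ⟨N, hN, rfl⟩
  exact cut_mem L Z r hN

end

end Vale.Agent.P291.K
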