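import Vale.Agent.P291.K.Mesh
import Vale.Agent.P291.K.Newton
import Vale.Agent.P291.K.Rank
import Vale.Agent.P291.K.ColonStep
import Vale.Agent.P291.K.Pt

set_option autoImplicit false
set_option linter.unusedSectionVars false

/-! The main induction. -/

namespace Vale.Agent.P291.K

open MvPolynomial

section
variable {M A I : Type} [CommRing A] [IsDomain A] [Algebra ℚ A] [DecidableEq M] [Fintype M]
  [DecidableEq I]

variable {col : M → I} {L : I → I → Multiset A} {Z : I → Multiset A} {h : A} {ε : A →+* ℂ}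
  {PP : Ideal (MvPolynomial M A)} {p : M → A} {r : M → ℚ}

/-- the product of two elements outside the prime ideal -/
lemma Step_mul (hP : Pt ε PP p r) {x y : MvPolynomial M A} (hx : x ∉ PP) (hy : y ∉ PP) :
    x * y ∉ PP := fun h1 => (hP.pr.mem_or_mem h1).elim hx hy

/-- the multiple of the Newton remainder is in the triangular ideal -/
lemma Step_span (hL : ∀ i j, L j i = (L i j).map fun l => h - l) (σ : M → ℕ)
    (hσ : Function.Injective σ) (r : M → ℚ) {k : ℕ} {u : M} (hu : σ u = k) (B : Finset M)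
    (hB : ∀ a ∈ B, a ∈ Rs σ k ∧ col a = col u) {w : MvPolynomial M A}
    (hw : w ∈ Ideal.span ((fun a : M => (HH col L Z h (Rs σ k) (col u)).eval (X a + C h)) ''
      (B : Set M))) :
    (∏ a ∈ B, DC col L a u) * w ∈ TC col L Z (rk σ r k) := by
  induction hw using Submodule.span_induction with
  | mem x hx =>
    obtain ⟨a, ha, rfl⟩ := hx
    have ha' : a ∈ B := ha
    obtain ⟨c, hc⟩ := mesh col L Z h hL σ hσ r hu (hB a ha').1 (hB a ha').2
    have h1 : PC col L Z (rk σ r k) a ∈ TC col L Z (rk σ r k) :=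
      Ideal.subset_span ⟨a, rfl⟩
    rw [← Finset.mul_prod_erase B _ ha']
    have h2 : DC col L a u * (∏ x ∈ B.erase a, DC col L x u) *
        (HH col L Z h (Rs σ k) (col u)).eval (X a + C h) =
        (∏ x ∈ B.erase a, DC col L x u) * (DC col L a u *
          (HH col L Z h (Rs σ k) (col u)).eval (X a + C h)) := by ring
    show DC col L a u * (∏ x ∈ B.erase a, DC col L x u) *
        (HH col L Z h (Rs σ k) (col u)).eval (X a + C h) ∈ TC col L Z (rk σ r k)
    rw [h2, hc]
    exact Ideal.mul_mem_left _ _ (Ideal.mul_mem_right _ _ h1)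
  | zero =>
    rw [mul_zero]
    exact Ideal.zero_mem _
  | add x y _ _ hx hy =>
    rw [mul_add]
    exact Ideal.add_mem _ hx hy
  | smul c x _ hx =>
    rw [smul_eq_mul, mul_left_comm]
    exact Ideal.mul_mem_left _ _ hx

/-- the step before the colon step -/
lemma Step_main (hP : Pt ε PP p r) (hl : Lbl L Z h ε) (σ : M → ℕ) (hσ : Function.Injective σ)
    (f : MvPolynomial M A) (k : ℕ) {u : M} (hu : σ u = k)
    (hk : ∃ s, s ∉ PP ∧ s * (f * (pp col 0 fun a b => σ a < σ b) *
      pp col h fun a b => ¬ (σ b < σ a ∧ σ b < k)) ∈ TC col L Z (rk σ r k)) :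
    ∃ s, s ∉ PP ∧ s * (f * (pp col 0 fun a b => σ a < σ b) *
      pp col h fun a b => ¬ (σ b < σ a ∧ σ b < k + 1)) *
      (HH col L Z h (Rs σ k) (col u)).eval (X u) ∈ TC col L Z (rk σ r k) := by
  classical
  obtain ⟨s, hs, hk⟩ := hk
  rw [pp_step col h σ hσ hu] at hk
  obtain ⟨B, hBdef⟩ : ∃ B : Finset M, B = ((Rs σ k).filter (fun a => col a = col u)).filter
    (fun a => p u = p a + h) := ⟨_, rfl⟩
  obtain ⟨F, hFdef⟩ : ∃ F : Finset M, F = ((Rs σ k).filter (fun a => col a = col u)).filter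
    (fun a => ¬ p u = p a + h) := ⟨_, rfl⟩
  have hsplit : (∏ a ∈ (Rs σ k).filter (fun a => col a = col u),
      (X a - X u + C h : MvPolynomial M A)) =
      (∏ a ∈ B, (X a - X u + C h)) * ∏ a ∈ F, (X a - X u + C h) := by
    rw [hBdef, hFdef]
    exact (Finset.prod_filter_mul_prod_filter_not _ _ _).symm
  rw [hsplit] at hk
  have hB : ∀ a ∈ B, a ∈ Rs σ k ∧ col a = col u := by
    intro a ha
    rw [hBdef, Finset.mem_filter, Finset.mem_filter] at ha
    exact ha.1
  have hBp : ∀ a ∈ B, p u = p a + h := by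
    intro a ha
    rw [hBdef, Finset.mem_filter] at ha
    exact ha.2
  have hF : (∏ a ∈ F, (X a - X u + C h : MvPolynomial M A)) ∉ PP := by
    refine prod_notMem hP _ _ fun a ha => ?_
    rw [hFdef, Finset.mem_filter] at ha
    exact hP.not_sub ha.2
  have hD : (∏ a ∈ B, DC col L a u) ∉ PP :=
    prod_notMem hP _ _ fun a ha => hP.dc_h hl (hBp a ha)
  obtain ⟨Q, hQ⟩ := newton (fun a : M => (X a + C h : MvPolynomial M A)) σ hσ (X u) B
    (HH col L Z h (Rs σ k) (col u))
  obtain ⟨V, hV⟩ := vdm_dvd (A := A) col σ B fun a ha b hb => (hB a ha).2.trans (hB b hb).2.symm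
  have hv : (∏ a ∈ B, ∏ b ∈ B.filter (fun b => σ a < σ b),
      ((X a + C h) - (X b + C h) : MvPolynomial M A)) =
      ∏ a ∈ B, ∏ b ∈ B.filter (fun b => σ a < σ b), (X a - X b) := by
    refine Finset.prod_congr rfl fun a _ => Finset.prod_congr rfl fun b _ => ?_
    ring
  have hn : (∏ a ∈ B, (X u - (X a + C h) : MvPolynomial M A)) =
      (-1) ^ B.card * ∏ a ∈ B, (X a - X u + C h) := by
    rw [← Finset.prod_const, ← Finset.prod_mul_distrib]
    refine Finset.prod_congr rfl fun a _ => ?_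
    ring
  rw [hv, hn] at hQ
  have h1 := Step_span (col := col) (L := L) (Z := Z) hl.mesh σ hσ r hu B hB hQ
  refine ⟨s * (∏ a ∈ F, (X a - X u + C h)) * ∏ a ∈ B, DC col L a u,
    Step_mul hP (Step_mul hP hs hF) hD, ?_⟩
  rw [hV] at hk ⊢
  generalize (∏ a ∈ B, ∏ b ∈ B.filter (fun b => σ a < σ b), (X a - X b : MvPolynomial M A)) = v
    at h1 hk ⊢
  generalize (∏ a ∈ B, DC col L a u) = D at h1 ⊢
  generalize (∏ a ∈ F, (X a - X u + C h : MvPolynomial M A)) = G at hk ⊢
  generalize (∏ a ∈ B, (X a - X u + C h : MvPolynomial M A)) = W at h1 hk ⊢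
  generalize (HH col L Z h (Rs σ k) (col u)).eval (X u) = H at h1 ⊢
  generalize (pp col h fun a b => ¬ (σ b < σ a ∧ σ b < k + 1)) = E at hk ⊢
  have h2 : s * G * D * (f * (v * V) * E) * H =
      (s * G * (f * V * E)) * (D * (v * (H - Q * ((-1) ^ B.card * W)))) +
      (D * Q * (-1) ^ B.card) * (s * (f * (v * V) * (E * (W * G)))) := by ring
  rw [h2]
  exact Ideal.add_mem _ (Ideal.mul_mem_left _ _ h1) (Ideal.mul_mem_left _ _ hk)

/-- one step, see the note: with `B = {a ∈ R : col a = col u, p u = p a + h}`, `H = HH`: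
`newton` for the nodes `x a + h`, `a ∈ B`, at `x u`; `vdm_dvd`; `mesh`; `Pt.dc_h`; the factors
`x a - x u + h`, `a ∉ B`, are not in `PP`; `HH_eval_u`; `Pt.zs`; `Pt.dc`; `colon_step`. -/
theorem step (hP : Pt ε PP p r) (hl : Lbl L Z h ε) (σ : M → ℕ) (hσ : Function.Injective σ)
    (f : MvPolynomial M A) (k : ℕ)
    (hk : ∃ s, s ∉ PP ∧ s * (f * (pp col 0 fun a b => σ a < σ b) *
      pp col h fun a b => ¬ (σ b < σ a ∧ σ b < k)) ∈ TC col L Z (rk σ r k)) :
    ∃ s, s ∉ PP ∧ s * (f * (pp col 0 fun a b => σ a < σ b) *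
      pp col h fun a b => ¬ (σ b < σ a ∧ σ b < k + 1)) ∈ TC col L Z (rk σ r (k + 1)) := by
  classical
  by_cases hu : ∃ u, σ u = k
  · obtain ⟨u, hu⟩ := hu
    obtain ⟨s, hs, h1⟩ := Step_main hP hl σ hσ f k hu hk
    rw [HH_eval_u, ← Finset.prod_filter_mul_prod_filter_not (Rs σ k) (fun d => r d < r u)] at h1
    have hd : (∏ d ∈ (Rs σ k).filter (fun d => ¬ r d < r u), DC col L d u) ∉ PP := by
      refine prod_notMem hP _ _ fun d hd => ?_
      rw [Finset.mem_filter] at hd
      intro h2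
      have h3 := hP.dc hl h2
      apply hd.2
      rw [h3]
      exact lt_add_one _
    have hc : (∏ c ∈ (Rs σ k).filter (fun c => ¬ r u < r c), DC col L u c) ∉ PP := by
      refine prod_notMem hP _ _ fun d hd => ?_
      rw [Finset.mem_filter] at hd
      intro h2
      have h3 := hP.dc hl h2
      apply hd.2
      rw [h3]
      exact lt_add_one _
    have hz := hP.zs hl (col := col) u
    have h2 := colon_step (A := A) col L Z σ hσ r hu
      (y := (s * (∏ d ∈ (Rs σ k).filter (fun d => ¬ r d < r u), DC col L d u) * Zs col Z h u) *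
        (f * (pp col 0 fun a b => σ a < σ b) *
        pp col h fun a b => ¬ (σ b < σ a ∧ σ b < k + 1))) (by
        convert h1 using 1
        ring)
    rw [← mul_assoc] at h2
    exact ⟨_, Step_mul hP hc (Step_mul hP (Step_mul hP hs hd) hz), h2⟩
  · have hu' : ∀ u, σ u ≠ k := fun u h1 => hu ⟨u, h1⟩
    obtain ⟨s, hs, h1⟩ := hk
    refine ⟨s, hs, ?_⟩
    rw [pp_none col h σ hu', TC_none col L Z σ hσ r hu']
    exact h1

end

end Vale.Agent.P291.K
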