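import Vale.Agent.P291.K.Reg2

set_option autoImplicit false
set_option linter.unusedSectionVars false

/-! The product of the differences. -/

namespace Vale.Agent.P291.K

open MvPolynomial

variable {M A I : Type} [CommRing A] [IsDomain A] [Algebra ℚ A] [DecidableEq M] [Fintype M]
  (col : M → I)

/-- `pp` splits -/
lemma pp_mul (s : A) (p q : M → M → Prop) (h : ∀ a b, ¬ (p a b ∧ q a b)) :
    pp col s p * pp col s q = pp col s fun a b => p a b ∨ q a b := by
  classical
  unfold pp
  rw [← Finset.prod_mul_distrib]
  refine Finset.prod_congr rfl fun a _ => ?_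
  rw [← Finset.prod_mul_distrib]
  refine Finset.prod_congr rfl fun b _ => ?_
  have h1 := h a b
  by_cases h2 : a ≠ b ∧ col a = col b
  · by_cases hp : p a b
    · have hq : ¬ q a b := fun hq => h1 ⟨hp, hq⟩
      rw [if_pos ⟨h2.1, h2.2, hp⟩, if_neg fun h3 => hq h3.2.2, if_pos ⟨h2.1, h2.2, Or.inl hp⟩,
        mul_one]
    · by_cases hq : q a b
      · rw [if_neg fun h3 => hp h3.2.2, if_pos ⟨h2.1, h2.2, hq⟩,
          if_pos ⟨h2.1, h2.2, Or.inr hq⟩, one_mul]
      · rw [if_neg fun h3 => hp h3.2.2, if_neg fun h3 => hq h3.2.2,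
          if_neg fun h3 => h3.2.2.elim hp hq, one_mul]
  · rw [if_neg fun h3 => h2 ⟨h3.1, h3.2.1⟩, if_neg fun h3 => h2 ⟨h3.1, h3.2.1⟩,
      if_neg fun h3 => h2 ⟨h3.1, h3.2.1⟩, one_mul]

/-- `pp` only depends on the pairs of different marks -/
lemma vdm_congr (s : A) (p q : M → M → Prop) (h : ∀ a b, a ≠ b → (p a b ↔ q a b)) :
    pp col s p = pp col s q := by
  classical
  unfold pp
  refine Finset.prod_congr rfl fun a _ => Finset.prod_congr rfl fun b _ => ?_
  by_cases hab : a = b
  · rw [if_neg fun h3 => h3.1 hab, if_neg fun h3 => h3.1 hab]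
  · simp only [h a b hab]

/-- permutations of the marks which respect the colours permute the factors -/
lemma rename_pp (π : Equiv.Perm M) (hπ : ∀ a, col (π a) = col a) (s : A) (p : M → M → Prop)
    (hp : ∀ a b, p (π a) (π b) ↔ p a b) : rename π (pp col s p) = pp col s p := by
  classical
  unfold pp
  rw [map_prod]
  conv_rhs => rw [← Equiv.prod_comp π]
  refine Finset.prod_congr rfl fun a _ => ?_
  rw [map_prod]
  conv_rhs => rw [← Equiv.prod_comp π]
  refine Finset.prod_congr rfl fun b _ => ?_
  by_cases h : a ≠ b ∧ col a = col b ∧ p a b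
  · rw [if_pos h, if_pos ⟨fun h1 => h.1 (π.injective h1), by rw [hπ, hπ]; exact h.2.1,
      (hp a b).2 h.2.2⟩, map_add, map_sub, rename_X, rename_X, rename_C]
  · rw [if_neg h, if_neg, map_one]
    rintro ⟨h1, h2, h3⟩
    rw [hπ, hπ] at h2
    exact h ⟨fun h4 => h1 (by rw [h4]), h2, (hp a b).1 h3⟩

/-- the product over the reversed pairs -/
lemma vdm_rev (p : M → M → Prop) : ∃ e : ℤ, e * e = 1 ∧
    pp col (0 : A) (fun a b => p b a) = (e : MvPolynomial M A) * pp col 0 p := by
  classical
  refine ⟨∏ a, ∏ b, if a ≠ b ∧ col a = col b ∧ p a b then -1 else 1, ?_, ?_⟩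
  · rw [← Finset.prod_mul_distrib]
    refine Finset.prod_eq_one fun a _ => ?_
    rw [← Finset.prod_mul_distrib]
    refine Finset.prod_eq_one fun b _ => ?_
    split_ifs <;> norm_num
  · unfold pp
    rw [Finset.prod_comm]
    push_cast
    rw [← Finset.prod_mul_distrib]
    refine Finset.prod_congr rfl fun a _ => ?_
    rw [← Finset.prod_mul_distrib]
    refine Finset.prod_congr rfl fun b _ => ?_
    by_cases h : a ≠ b ∧ col a = col b ∧ p a b
    · rw [if_pos h, if_pos h, if_pos ⟨h.1.symm, h.2.1.symm, h.2.2⟩, C_0]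
      ring
    · rw [if_neg h, if_neg h, if_neg fun h1 => h ⟨h1.1.symm, h1.2.1.symm, h1.2.2⟩, one_mul]

/-- the square of the product over the ordered pairs `σ a < σ b` is, up to sign, the product over
all ordered pairs -/
lemma pp_sq (σ : M → ℕ) (hσ : Function.Injective σ) : ∃ e : ℤ, e * e = 1 ∧
    pp col (0 : A) (fun a b => σ a < σ b) * pp col 0 (fun a b => σ a < σ b) =
      (e : MvPolynomial M A) * pp col 0 fun _ _ => True := by
  obtain ⟨e, he, h⟩ := vdm_rev (A := A) col fun a b => σ a < σ b
  refine ⟨e, he, ?_⟩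
  have h1 : pp col (0 : A) (fun _ _ => True) =
      pp col 0 fun a b => σ a < σ b ∨ σ b < σ a := by
    refine vdm_congr col 0 _ _ fun a b hab => ?_
    have h2 : σ a ≠ σ b := fun h3 => hab (hσ h3)
    exact ⟨fun _ => lt_or_gt_of_ne h2, fun _ => trivial⟩
  rw [h1, ← pp_mul col 0 (fun a b => σ a < σ b) (fun a b => σ b < σ a)
    fun a b h2 => lt_asymm h2.1 h2.2, h]
  have he' : (e : MvPolynomial M A) * (e : MvPolynomial M A) = 1 := by
    rw [← Int.cast_mul, he, Int.cast_one]
  linear_combination (-(pp col (0 : A) (fun a b => σ a < σ b) *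
    pp col 0 (fun a b => σ a < σ b))) * he'

/-- one factor -/
lemma vdm_single {a b : M} (hab : a ≠ b) (hc : col a = col b) :
    pp col (0 : A) (fun c d => c = a ∧ d = b) = X a - X b := by
  classical
  unfold pp
  rw [Finset.prod_eq_single a, Finset.prod_eq_single b]
  · rw [if_pos ⟨hab, hc, rfl, rfl⟩, map_zero, add_zero]
  · intro d _ hd
    rw [if_neg fun h => hd h.2.2.2]
  · intro h
    exact absurd (Finset.mem_univ b) h
  · intro c _ hca
    refine Finset.prod_eq_one fun d _ => ?_
    rw [if_neg fun h => hca h.2.2.1]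
  · intro h
    exact absurd (Finset.mem_univ a) h

/-- the case `σ a < σ b` -/
lemma vdm_sw (σ : M → ℕ) (hσ : Function.Injective σ) {a b : M} (hab : σ a < σ b)
    (hc : col a = col b) :
    sw a b (pp col (0 : A) fun a b => σ a < σ b) = -pp col 0 fun a b => σ a < σ b := by
  classical
  have hne : a ≠ b := fun h => by
    rw [h] at hab
    exact lt_irrefl _ hab
  have hchar : CharZero A := algebraRat.charZero A
  set P : MvPolynomial M A := pp col (0 : A) fun a b => σ a < σ b with hP
  obtain ⟨e, he, h1⟩ := pp_sq (A := A) col σ hσ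
  rw [← hP] at h1
  have hinv : sw a b (pp col (0 : A) fun _ _ => True) = pp col 0 fun _ _ => True := by
    refine rename_pp col (Equiv.swap a b) (fun c => ?_) 0 _ fun _ _ => Iff.rfl
    by_cases h2 : c = a
    · rw [h2, Equiv.swap_apply_left, hc]
    · by_cases h3 : c = b
      · rw [h3, Equiv.swap_apply_right, hc]
      · rw [Equiv.swap_apply_of_ne_of_ne h2 h3]
  have hsq : sw a b P * sw a b P = P * P := by
    rw [← map_mul, h1, map_mul, map_intCast, hinv]
  rcases mul_self_eq_mul_self_iff.1 hsq with h2 | h2
  · exfalso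
    set Q : MvPolynomial M A := pp col (0 : A) (fun c d => σ c < σ d ∧ ¬ (c = a ∧ d = b)) with hQ
    have hPQ : P = (X a - X b) * Q := by
      rw [hP, hQ, ← vdm_single (A := A) col hne hc, pp_mul]
      · refine vdm_congr col 0 _ _ fun c d _ => ?_
        constructor
        · intro h3
          by_cases h4 : c = a ∧ d = b
          · exact Or.inl h4
          · exact Or.inr ⟨h3, h4⟩
        · rintro (⟨rfl, rfl⟩ | h3)
          · exact hab
          · exact h3.1
      · intro c d h3
        exact h3.2.2 h3.1
    have hX : (X a - X b : MvPolynomial M A) ≠ 0 :=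
      sub_ne_zero.2 fun h3 => hne (X_injective h3)
    have hswX : sw a b (X a - X b : MvPolynomial M A) = -(X a - X b) := by
      unfold sw
      rw [map_sub, rename_X, rename_X, Equiv.swap_apply_left, Equiv.swap_apply_right, neg_sub]
    have h3 : sw a b Q = -Q := by
      rw [hPQ, map_mul, hswX] at h2
      have h4 : (X a - X b : MvPolynomial M A) * (sw a b Q + Q) = 0 := by
        linear_combination -h2
      exact eq_neg_of_add_eq_zero_left ((mul_eq_zero.1 h4).resolve_left hX)
    set f : M → M := fun c => if c = a then b else c with hf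
    have hfa : f a = b := if_pos rfl
    have hfo : ∀ c, c ≠ a → f c = c := fun c hca => if_neg hca
    have hfs : f ∘ Equiv.swap a b = f := by
      funext c
      rw [Function.comp_apply]
      by_cases h4 : c = a
      · rw [h4, Equiv.swap_apply_left, hfa, hfo b hne.symm]
      · by_cases h5 : c = b
        · rw [h5, Equiv.swap_apply_right, hfa, hfo b hne.symm]
        · rw [Equiv.swap_apply_of_ne_of_ne h4 h5]
    have h4 : rename f Q = -rename f Q := by
      have h5 := congrArg (rename f) h3
      unfold sw at h5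
      rw [rename_rename, hfs, map_neg] at h5
      exact h5
    have h5 : rename f Q = 0 := self_eq_neg.1 h4
    refine absurd h5 ?_
    rw [hQ, pp, map_prod]
    refine Finset.prod_ne_zero_iff.2 fun c _ => ?_
    rw [map_prod]
    refine Finset.prod_ne_zero_iff.2 fun d _ => ?_
    split_ifs with h6
    · obtain ⟨h7, -, h8, h9⟩ := h6
      rw [map_zero, add_zero, map_sub, rename_X, rename_X]
      refine sub_ne_zero.2 fun h10 => ?_
      have h11 : f c = f d := X_injective h10
      by_cases h12 : c = a
      · by_cases h13 : d = a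
        · exact h7 (by rw [h12, h13])
        · rw [h12, hfa, hfo d h13] at h11
          exact h9 ⟨h12, h11.symm⟩
      · by_cases h13 : d = a
        · rw [h13, hfa, hfo c h12] at h11
          rw [h11, h13] at h8
          exact lt_asymm hab h8
        · rw [hfo c h12, hfo d h13] at h11
          exact h7 h11
    · rw [map_one]
      exact one_ne_zero
  · exact h2

/-- the product over the pairs `σ a < σ b` is alternating (its square is invariant by `pp_sq` and
`rename_pp`, so it is invariant or changes sign; it is not invariant: divide by `x a - x b` and put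
`x a = x b`) -/
lemma sw_vdm (σ : M → ℕ) (hσ : Function.Injective σ) {a b : M} (hab : a ≠ b)
    (hc : col a = col b) :
    sw a b (pp col (0 : A) fun a b => σ a < σ b) = -pp col 0 fun a b => σ a < σ b := by
  rcases lt_or_gt_of_ne (fun h : σ a = σ b => hab (hσ h)) with h | h
  · exact vdm_sw col σ hσ h hc
  · have h1 := vdm_sw (A := A) col σ hσ h hc.symm
    rw [sw, Equiv.swap_comm] at h1
    exact h1

end Vale.Agent.P291.K
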